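import Vale.Agent.P295.Full.Setup

open MvPolynomial

namespace Vale.Agent.P295.Full

/-- the cubic form xy(x-y) in two variables -/
noncomputable def kerCub : P2 := X 0 * X 1 * (X 0 - X 1)

theorem kerCub_hom : (kerCub).IsHomogeneous 3 := by
  have h1 : (X 0 * X 1 : P2).IsHomogeneous 2 := (isHomogeneous_X ℂ 0).mul (isHomogeneous_X ℂ 1)
  have h2 : (X 0 - X 1 : P2).IsHomogeneous 1 := (isHomogeneous_X ℂ 0).sub (isHomogeneous_X ℂ 1)
  exact h1.mul h2

theorem kerCub_ne : kerCub ≠ 0 := by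
  intro h
  have := congrArg (MvPolynomial.eval ![(2:ℂ), 1]) h
  simp [kerCub] at this
  norm_num at this

theorem kerCub_deg (c : ℂ) : (C c - C 4 * kerCub : P2).totalDegree = 3 := by
  have h4 : (C 4 * kerCub : P2) ≠ 0 := mul_ne_zero (by simp) kerCub_ne
  have hh : (C 4 * kerCub : P2).IsHomogeneous 3 := by
    have := (isHomogeneous_C (Fin 2) (4:ℂ)).mul kerCub_hom
    simpa using this
  have hd : (C 4 * kerCub : P2).totalDegree = 3 := hh.totalDegree h4
  have hd' : (-(C 4 * kerCub) : P2).totalDegree = 3 := by rw [totalDegree_neg, hd]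
  rw [sub_eq_add_neg, totalDegree_add_eq_right_of_totalDegree_lt, hd']
  rw [hd', totalDegree_C]; norm_num

/-- parity of the total degree: the discriminant is not a square -/
theorem ker_parity (c : ℂ) (s r : P2) (h : s ^ 2 = r ^ 2 * (C c - C 4 * kerCub)) :
    r = 0 := by
  by_contra hr
  have hD : (C c - C 4 * kerCub : P2) ≠ 0 := by
    intro h0
    have := kerCub_deg c
    rw [h0] at this
    simp at this
  have hs : s ≠ 0 := by
    rintro rfl
    have : r ^ 2 * (C c - C 4 * kerCub) ≠ 0 := mul_ne_zero (pow_ne_zero 2 hr) hD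
    apply this
    rw [← h]; ring
  have h1 : (s * s).totalDegree = s.totalDegree + s.totalDegree :=
    totalDegree_mul_of_isDomain hs hs
  have h2 : (r * r * (C c - C 4 * kerCub)).totalDegree = r.totalDegree + r.totalDegree + 3 := by
    rw [totalDegree_mul_of_isDomain (mul_ne_zero hr hr) hD, totalDegree_mul_of_isDomain hr hr,
      kerCub_deg]
  have h3 : s * s = r * r * (C c - C 4 * kerCub) := by
    calc s * s = s ^ 2 := by ring
      _ = _ := h
      _ = _ := by ring
  rw [h3, h2] at h1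
  omega

theorem ker_norm (c : ℂ) (r0 r1 : P2)
    (h : r0 ^ 2 - C c * r0 * r1 + r1 ^ 2 * kerCub = 0) : r0 = 0 ∧ r1 = 0 := by
  have h1 : r1 = 0 := by
    apply ker_parity (c ^ 2) (C 2 * r0 - C c * r1) r1
    have e2 : (C 2 : P2) = 2 := map_ofNat C 2
    have e4 : (C 4 : P2) = 4 := map_ofNat C 4
    rw [C_pow, e2, e4]
    linear_combination 4 * h
  refine ⟨?_, h1⟩
  rw [h1] at h
  have : r0 ^ 2 = 0 := by linear_combination h
  exact pow_eq_zero_iff (two_ne_zero) |>.1 this

/-- the two first variables -/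
noncomputable def kerI : P2 →ₐ[ℂ] A3 := aeval ![X 0, X 1]

theorem kerI_0 : kerI (X 0) = X 0 := by simp [kerI]
theorem kerI_1 : kerI (X 1) = X 1 := by simp [kerI]
theorem kerI_C (c : ℂ) : kerI (C c) = C c := kerI.commutes c
theorem kerI_cub : kerI kerCub = X 0 * X 1 * (X 0 - X 1) := by
  simp [kerI, kerCub]

/-- the polynomial z^2 + c z + xy(x-y) -/
noncomputable def kerG (c : ℂ) : A3 := X 2 ^ 2 + C c * X 2 + X 0 * X 1 * (X 0 - X 1)

theorem ker_normal (c : ℂ) (f : A3) :
    ∃ (r0 r1 : P2) (g : A3), f = kerI r0 + kerI r1 * X 2 + kerG c * g := by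
  induction f using MvPolynomial.induction_on with
  | C a => exact ⟨C a, 0, 0, by simp⟩
  | add p q hp hq =>
    obtain ⟨r0, r1, g, hp⟩ := hp
    obtain ⟨s0, s1, h, hq⟩ := hq
    refine ⟨r0 + s0, r1 + s1, g + h, ?_⟩
    rw [map_add, map_add, hp, hq]; ring
  | mul_X p i hp =>
    obtain ⟨r0, r1, g, hp⟩ := hp
    fin_cases i
    · refine ⟨r0 * X 0, r1 * X 0, g * X 0, ?_⟩
      rw [map_mul, map_mul, kerI_0, hp]
      simp only [Fin.zero_eta]
      ring
    · refine ⟨r0 * X 1, r1 * X 1, g * X 1, ?_⟩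
      rw [map_mul, map_mul, kerI_1, hp]
      simp only [Fin.mk_one]
      ring
    · refine ⟨- (r1 * kerCub), r0 - C c * r1, kerI r1 + g * X 2, ?_⟩
      rw [map_neg, map_mul, map_sub, map_mul, kerI_cub, kerI_C, hp]
      simp only [Fin.reduceFinMk]
      rw [kerG]
      ring

theorem ker_main (c : ℂ) (θ : A3 →ₐ[ℂ] P2) (hθ : θ (kerG c) = 0)
    (hinj : ∀ N : P2, θ (kerI N) = 0 → N = 0) (f : A3) : θ f = 0 ↔ kerG c ∣ f := by
  constructor
  · intro h
    obtain ⟨r0, r1, g, hf⟩ := ker_normal c f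
    have h1 : θ (kerI r0) + θ (kerI r1) * θ (X 2) = 0 := by
      have := h
      rw [hf, map_add, map_mul θ (kerG c), hθ, zero_mul, add_zero, map_add, map_mul] at this
      exact this
    have hz : θ (X 2) ^ 2 + C c * θ (X 2) + θ (kerI kerCub) = 0 := by
      have := hθ
      rw [kerG, map_add, map_add, map_pow, map_mul] at this
      rw [kerI_cub]
      rw [show θ (C c) = C c from θ.commutes c] at this
      exact this
    have hc : θ (kerI (C c)) = C c := by
      rw [kerI_C]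
      exact θ.commutes c
    have hN : θ (kerI (r0 ^ 2 - C c * r0 * r1 + r1 ^ 2 * kerCub)) = 0 := by
      rw [map_add, map_add, map_sub, map_sub, map_mul, map_mul, map_mul, map_mul, map_mul, map_mul,
        map_pow, map_pow, map_pow, map_pow, hc]
      linear_combination (θ (kerI r0) - θ (kerI r1) * θ (X 2) - C c * θ (kerI r1)) * h1
        + θ (kerI r1) ^ 2 * hz
    obtain ⟨e0, e1⟩ := ker_norm c r0 r1 (hinj _ hN)
    rw [hf, e0, e1]
    simp
  · rintro ⟨g, rfl⟩
    rw [map_mul, hθ, zero_mul]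

/-- injectivity from generic surjectivity on points -/
theorem ker_inj (θ : A3 →ₐ[ℂ] P2) (G : P2) (hG : G ≠ 0)
    (hpt : ∀ x y : ℂ, MvPolynomial.eval ![x, y] G ≠ 0 →
      ∃ w : Fin 2 → ℂ, MvPolynomial.eval w (θ (X 0)) = x ∧ MvPolynomial.eval w (θ (X 1)) = y)
    (N : P2) (hN : θ (kerI N) = 0) : N = 0 := by
  have hprod : N * G = 0 := by
    apply MvPolynomial.funext
    intro p
    have hp : p = ![p 0, p 1] := by
      ext i; fin_cases i <;> rfl
    rw [map_mul, map_zero]
    by_cases hg : MvPolynomial.eval p G = 0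
    · rw [hg, mul_zero]
    · rw [hp] at hg
      obtain ⟨w, hx, hy⟩ := hpt (p 0) (p 1) hg
      have key : ∀ M : P2, MvPolynomial.eval w (θ (kerI M)) = MvPolynomial.eval p M := by
        intro M
        induction M using MvPolynomial.induction_on with
        | C a =>
          rw [kerI_C]
          have := θ.commutes a
          rw [MvPolynomial.algebraMap_eq, MvPolynomial.algebraMap_eq] at this
          rw [this]; simp
        | add a b ha hb => rw [map_add, map_add, map_add, map_add, ha, hb]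
        | mul_X a i ha =>
          rw [map_mul, map_mul, map_mul, map_mul, ha]
          fin_cases i
          · simp only [Fin.zero_eta, kerI_0, hx, eval_X]
          · simp only [Fin.mk_one, kerI_1, hy, eval_X]
      rw [← key N, hN]; simp
  rcases mul_eq_zero.1 hprod with h | h
  · exact h
  · exact absurd h hG

theorem eta_X0 : eta (X 0) = phx (X 0) (X 1) := by simp [eta]
theorem eta_X1 : eta (X 1) = phy (X 0) (X 1) := by simp [eta]
theorem eta_X2 : eta (X 2) = phz (X 0) (X 1) := by simp [eta]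

theorem etah_X0 : etah (X 0) = X 0 * (X 0 - 1) * X 1 ^ 2 := by simp [etah]
theorem etah_X1 : etah (X 1) = X 0 * (X 0 * (X 0 - 1) * X 1 ^ 2) := by simp [etah]
theorem etah_X2 : etah (X 2) = (X 0 * (X 0 - 1)) ^ 2 * X 1 ^ 3 := by simp [etah]

theorem kerG_one : kerG 1 = F := by
  simp [kerG, F, fF]

theorem kerG_zero : kerG 0 = Fh := by
  simp [kerG, Fh]

theorem ker_eta_F : eta (kerG 1) = 0 := by
  rw [kerG_one, F]
  simp only [fF, map_add, map_mul, map_sub, map_pow, eta_X0, eta_X1, eta_X2]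
  exact fF_ph (X 0 : P2) (X 1)

theorem ker_etah_F : etah (kerG 0) = 0 := by
  rw [kerG_zero, Fh]
  simp only [map_add, map_mul, map_sub, map_pow, etah_X0, etah_X1, etah_X2]
  ring

/-- points: existence of preimages for eta -/
theorem ker_pt (x y z : ℂ) (hF : z ^ 2 + z + x * y * (x - y) = 0)
    (h1 : x ^ 2 + x + 1 ≠ 0) (h2 : x ^ 2 + x + 1 - x * y + (x + 1) * z ≠ 0) :
    ∃ b v : ℂ, phx b v = x ∧ phy b v = y := by
  refine ⟨(x * y + y - z) / (x ^ 2 + x + 1),
    x * (x ^ 2 + x + 1) / (x ^ 2 + x + 1 - x * y + (x + 1) * z), ?_⟩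
  set b : ℂ := (x * y + y - z) / (x ^ 2 + x + 1) with hb
  set v : ℂ := x * (x ^ 2 + x + 1) / (x ^ 2 + x + 1 - x * y + (x + 1) * z) with hv
  have hb' : b * (x ^ 2 + x + 1) = x * y + y - z := div_mul_cancel₀ _ h1
  have hv' : v * (x ^ 2 + x + 1 - x * y + (x + 1) * z) = x * (x ^ 2 + x + 1) :=
    div_mul_cancel₀ _ h2
  -- p = y - b(x+1)
  have hp : b * (b - 1) * v = y - b * (x + 1) := by
    have : (b * (b - 1) * v - (y - b * (x + 1))) * ((x ^ 2 + x + 1) ^ 2 *
        (x ^ 2 + x + 1 - x * y + (x + 1) * z)) = 0 := by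
      linear_combination
        ((b * (x ^ 2 + x + 1)) ^ 2 - (x ^ 2 + x + 1) * (b * (x ^ 2 + x + 1))) * hv'
        + ((b * (x ^ 2 + x + 1) + (x * y + y - z) - (x ^ 2 + x + 1)) * x * (x ^ 2 + x + 1)
          + (x + 1) * (x ^ 2 + x + 1) * (x ^ 2 + x + 1 - x * y + (x + 1) * z)) * hb'
        - (x ^ 2 + x + 1) ^ 2 * hF
    rcases mul_eq_zero.1 this with h | h
    · linear_combination h
    · exfalso
      rcases mul_eq_zero.1 h with h | h
      · exact h1 (pow_eq_zero_iff two_ne_zero |>.1 h)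
      · exact h2 h
  have hx : phx b v = x := by
    simp only [phx]
    have : (v * (1 + b * (b - 1) * v) - x) * (x ^ 2 + x + 1) = 0 := by
      rw [hp]
      linear_combination hv' - v * (x + 1) * hb'
    rcases mul_eq_zero.1 this with h | h
    · linear_combination h
    · exact absurd h h1
  refine ⟨hx, ?_⟩
  simp only [phy]
  rw [hx]
  linear_combination hp

/-- roots of monic quadratics -/
theorem ker_root (c d : ℂ) : ∃ z : ℂ, z ^ 2 + c * z + d = 0 := by
  obtain ⟨s, hs⟩ := IsAlgClosed.exists_pow_nat_eq (c ^ 2 - 4 * d) (n := 2) (by norm_num)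
  refine ⟨(s - c) / 2, ?_⟩
  linear_combination hs / 4

/-- the exceptional polynomial for eta -/
noncomputable def kerE : P2 :=
  (X 0 ^ 2 + X 0 + 1) * ((X 0 ^ 2 + X 0 + 1 - X 0 * X 1) ^ 2
    - (X 0 ^ 2 + X 0 + 1 - X 0 * X 1) * (X 0 + 1) + (X 0 + 1) ^ 2 * (X 0 * X 1 * (X 0 - X 1)))

theorem kerE_eval (x y : ℂ) : MvPolynomial.eval ![x, y] kerE =
    (x ^ 2 + x + 1) * ((x ^ 2 + x + 1 - x * y) ^ 2
    - (x ^ 2 + x + 1 - x * y) * (x + 1) + (x + 1) ^ 2 * (x * y * (x - y))) := by
  simp [kerE]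

theorem kerE_ne : kerE ≠ 0 := by
  intro h
  have := kerE_eval 1 0
  rw [h, map_zero] at this
  norm_num at this

theorem ker_eta_inj (N : P2) (hN : eta (kerI N) = 0) : N = 0 := by
  refine ker_inj eta kerE kerE_ne ?_ N hN
  intro x y h
  rw [kerE_eval] at h
  obtain ⟨z, hz⟩ := ker_root 1 (x * y * (x - y))
  have h1 : x ^ 2 + x + 1 ≠ 0 := left_ne_zero_of_mul h
  have h2 : x ^ 2 + x + 1 - x * y + (x + 1) * z ≠ 0 := by
    intro h0
    apply right_ne_zero_of_mul h
    linear_combination (x ^ 2 + x + 1 - x * y + (x + 1) * (- 1 - z)) * h0 + (x + 1) ^ 2 * hz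
  obtain ⟨b, v, hx, hy⟩ := ker_pt x y z (by linear_combination hz) h1 h2
  refine ⟨![b, v], ?_, ?_⟩
  · rw [eta_X0]
    rw [← hx]
    simp [phx]
  · rw [eta_X1]
    rw [← hy]
    simp [phy, phx]

theorem ker_etah_inj (N : P2) (hN : etah (kerI N) = 0) : N = 0 := by
  refine ker_inj etah (X 0 * X 1 * (X 1 - X 0)) ?_ ?_ N hN
  · intro h
    have := congrArg (MvPolynomial.eval ![(1:ℂ), 2]) h
    simp at this
    norm_num at this
  · intro x y h
    have h' : x * y * (y - x) ≠ 0 := by simpa using h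
    have hx : x ≠ 0 := fun h0 => h' (by rw [h0]; ring)
    have hy : y ≠ 0 := fun h0 => h' (by rw [h0]; ring)
    have hyx : y - x ≠ 0 := right_ne_zero_of_mul h'
    obtain ⟨v, hv⟩ := IsAlgClosed.exists_pow_nat_eq (x ^ 3 / (y * (y - x))) (n := 2) (by norm_num)
    have e1 : (y / x) * (y / x - 1) * v ^ 2 = x := by
      rw [hv]; field_simp
    refine ⟨![y / x, v], ?_, ?_⟩
    · rw [etah_X0]
      simpa using e1
    · rw [etah_X1]
      have : (y / x) * ((y / x) * (y / x - 1) * v ^ 2) = y := by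
        rw [e1]; field_simp
      simpa using this

theorem eta_eq_zero_iff (f : A3) : eta f = 0 ↔ F ∣ f := by
  rw [← kerG_one]
  exact ker_main 1 eta ker_eta_F ker_eta_inj f

theorem etah_eq_zero_iff (f : A3) : etah f = 0 ↔ Fh ∣ f := by
  rw [← kerG_zero]
  exact ker_main 0 etah ker_etah_F ker_etah_inj f

end Vale.Agent.P295.Full
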