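import Vale.Agent.P295.Full.Setup

open MvPolynomial

namespace Vale.Agent.P295.Full

/-- Leibniz rule for iterates of a derivation. -/
theorem lnd_leibniz {A : Type} [CommRing A] [Algebra ℂ A] (D : Derivation ℂ A A) (a b : A)
    (m : ℕ) : (⇑D)^[m] (a * b) =
      ∑ p ∈ Finset.HasAntidiagonal.antidiagonal m, m.choose p.1 • ((⇑D)^[p.1] a * (⇑D)^[p.2] b) := by
  induction m with
  | zero => simp
  | succ m ih =>
    rw [Function.iterate_succ_apply', ih, map_sum,
      Finset.sum_antidiagonal_choose_succ_nsmul
        (fun i j => (⇑D)^[i] a * (⇑D)^[j] b), ← Finset.sum_add_distrib]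
    refine Finset.sum_congr rfl fun p hp => ?_
    have hp' : p.1 + p.2 = m := Finset.HasAntidiagonal.mem_antidiagonal.1 hp
    have hch : m.choose p.2 = m.choose p.1 := by
      rw [← Nat.choose_symm_of_eq_add (n := m) (a := p.1) (b := p.2) hp'.symm]
    rw [map_nsmul, D.leibniz, hch, ← nsmul_add]
    congr 1
    rw [Function.iterate_succ_apply', Function.iterate_succ_apply', smul_eq_mul, smul_eq_mul]
    ring

/-- The truncated exponential series. -/
noncomputable def lndE {A P : Type} [CommRing A] [Algebra ℂ A] [CommRing P] [Algebra ℂ P]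
    (D : Derivation ℂ A A) (η : A →ₐ[ℂ] P) (hLN : ∀ a, ∃ n : ℕ, η ((⇑D)^[n] a) = 0) (a : A) :
    Polynomial P :=
  ∑ i ∈ Finset.range (hLN a).choose,
    Polynomial.monomial i (((i.factorial : ℂ)⁻¹) • η ((⇑D)^[i] a))

theorem lnd_zero {A P : Type} [CommRing A] [Algebra ℂ A] [CommRing P] [Algebra ℂ P]
    (D : Derivation ℂ A A) (η : A →ₐ[ℂ] P) (hker : ∀ a, η a = 0 → η (D a) = 0) {a : A} {n : ℕ}
    (h : η ((⇑D)^[n] a) = 0) : ∀ m, n ≤ m → η ((⇑D)^[m] a) = 0 := by
  intro m hm
  induction m, hm using Nat.le_induction with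
  | base => exact h
  | succ m _ ih => rw [Function.iterate_succ_apply']; exact hker _ ih

theorem lndE_coeff {A P : Type} [CommRing A] [Algebra ℂ A] [CommRing P] [Algebra ℂ P]
    (D : Derivation ℂ A A) (η : A →ₐ[ℂ] P) (hker : ∀ a, η a = 0 → η (D a) = 0)
    (hLN : ∀ a, ∃ n : ℕ, η ((⇑D)^[n] a) = 0) (a : A) (m : ℕ) :
    (lndE D η hLN a).coeff m = ((m.factorial : ℂ)⁻¹) • η ((⇑D)^[m] a) := by
  unfold lndE
  rw [Polynomial.finsetSum_coeff]
  by_cases hm : m < (hLN a).choose
  · rw [Finset.sum_eq_single m]
    · rw [Polynomial.coeff_monomial, if_pos rfl]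
    · intro i _ hi
      rw [Polynomial.coeff_monomial, if_neg hi]
    · intro h
      exact absurd (Finset.mem_range.2 hm) h
  · rw [lnd_zero D η hker (hLN a).choose_spec m (not_lt.1 hm), smul_zero]
    refine Finset.sum_eq_zero fun i hi => ?_
    have : i ≠ m := by
      rintro rfl
      exact hm (Finset.mem_range.1 hi)
    rw [Polynomial.coeff_monomial, if_neg this]

theorem exists_exp {A P : Type} [CommRing A] [Algebra ℂ A] [CommRing P] [Algebra ℂ P]
    (D : Derivation ℂ A A) (η : A →ₐ[ℂ] P)
    (hker : ∀ a, η a = 0 → η (D a) = 0) (hLN : ∀ a, ∃ n : ℕ, η ((⇑D)^[n] a) = 0) :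
    ∃ E : A →ₐ[ℂ] Polynomial P, (∀ a, E (D a) = Polynomial.derivative (E a)) ∧
      (∀ a, (E a).coeff 0 = η a) ∧ (∀ a, η a = 0 → E a = 0) := by
  have hc := lndE_coeff D η hker hLN
  have hconst : ∀ (r : ℂ) (m : ℕ), (⇑D)^[m] (algebraMap ℂ A r) =
      if m = 0 then algebraMap ℂ A r else 0 := by
    intro r m
    induction m with
    | zero => simp
    | succ m ih =>
      rw [Function.iterate_succ_apply', ih, if_neg (Nat.succ_ne_zero m)]
      split_ifs
      · exact D.map_algebraMap r
      · exact map_zero D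
  let E : A →ₐ[ℂ] Polynomial P :=
    { toFun := lndE D η hLN
      map_one' := by
        ext m
        rw [hc, Polynomial.coeff_one]
        have := hconst 1 m
        rw [map_one] at this
        rw [this]
        by_cases hm : m = 0
        · subst hm; simp
        · simp [hm]
      map_zero' := by
        ext m
        rw [hc, Polynomial.coeff_zero, iterate_map_zero, map_zero, smul_zero]
      map_add' := by
        intro a b
        ext m
        rw [Polynomial.coeff_add, hc, hc, hc, iterate_map_add, map_add, smul_add]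
      map_mul' := by
        intro a b
        ext m
        rw [Polynomial.coeff_mul, hc, lnd_leibniz, map_sum, Finset.smul_sum]
        refine Finset.sum_congr rfl fun p hp => ?_
        have hp' : p.1 + p.2 = m := Finset.HasAntidiagonal.mem_antidiagonal.1 hp
        rw [hc, hc, map_nsmul, map_mul, smul_mul_smul_comm, ← Nat.cast_smul_eq_nsmul ℂ, smul_smul]
        congr 1
        have h1 : (m.factorial : ℂ) = m.choose p.1 * p.1.factorial * p.2.factorial := by
          have h2 := Nat.choose_mul_factorial_mul_factorial (n := m) (k := p.1) (by omega)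
          have h3 : m - p.1 = p.2 := by omega
          rw [h3] at h2
          exact_mod_cast h2.symm
        have f0 : (m.factorial : ℂ) ≠ 0 := by exact_mod_cast m.factorial_ne_zero
        have f1 : (p.1.factorial : ℂ) ≠ 0 := by exact_mod_cast p.1.factorial_ne_zero
        have f2 : (p.2.factorial : ℂ) ≠ 0 := by exact_mod_cast p.2.factorial_ne_zero
        have f3 : (m.choose p.1 : ℂ) ≠ 0 := by
          intro h
          rw [h] at h1
          simp at h1
          exact f0 (by exact_mod_cast h1)
        rw [h1]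
        field_simp
      commutes' := by
        intro r
        ext m
        rw [hc, hconst, Polynomial.algebraMap_apply, Polynomial.coeff_C]
        by_cases hm : m = 0
        · subst hm; simp
        · simp [hm] }
  have hE : ∀ a, E a = lndE D η hLN a := fun _ => rfl
  refine ⟨E, fun a => ?_, fun a => ?_, fun a ha => ?_⟩
  · ext m
    rw [hE, hE, Polynomial.coeff_derivative, hc, hc, ← Function.iterate_succ_apply (⇑D)]
    have h1 : ((m : P) + 1) = ((m : ℂ) + 1) • (1 : P) := by
      rw [Algebra.smul_def]; simp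
    rw [h1, mul_smul_comm, mul_one, smul_smul]
    congr 1
    rw [Nat.factorial_succ]
    push_cast
    have f0 : (m.factorial : ℂ) ≠ 0 := by exact_mod_cast m.factorial_ne_zero
    have f1 : (m : ℂ) + 1 ≠ 0 := by exact_mod_cast Nat.succ_ne_zero m
    field_simp
  · rw [hE, hc]
    simp
  · ext m
    rw [hE, hc, lnd_zero D η hker (n := 0) ha m (Nat.zero_le m), smul_zero, Polynomial.coeff_zero]

theorem dvd_imp {A : Type} [CommRing A] [IsDomain A] [Algebra ℂ A] (D : Derivation ℂ A A)
    (hD : IsLN D) {f : A} (h : f ∣ D f) : D f = 0 := by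
  obtain ⟨E, h1, h2, -⟩ := exists_exp D (AlgHom.id ℂ A) (fun a ha => by
    change a = 0 at ha
    change D a = 0
    rw [ha, map_zero]) (fun a => hD a)
  obtain ⟨g, hg⟩ := h
  have h3 : E f * E g = Polynomial.derivative (E f) := by
    rw [← h1, hg, map_mul]
  have h4 : Polynomial.derivative (E f) = 0 := by
    by_contra hne
    have hf : E f ≠ 0 := by
      intro h0
      rw [h0, Polynomial.derivative_zero] at hne
      exact hne rfl
    have hg0 : E g ≠ 0 := by
      intro h0
      rw [h0, mul_zero] at h3
      exact hne h3.symm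
    have h5 := Polynomial.degree_derivative_lt hf
    rw [← h3, Polynomial.degree_mul] at h5
    have h6 : (0 : WithBot ℕ) ≤ (E g).degree := Polynomial.zero_le_degree_iff.2 hg0
    have h7 : (E f).degree ≤ (E f).degree + (E g).degree := by
      calc (E f).degree = (E f).degree + 0 := (add_zero _).symm
        _ ≤ _ := by gcongr
    exact absurd h5 (not_lt.2 h7)
  rw [← h1] at h4
  have h8 := h2 (D f)
  rw [h4, Polynomial.coeff_zero] at h8
  exact h8.symm

theorem smul_LN {A : Type} [CommRing A] [IsDomain A] [Algebra ℂ A] (D D' : Derivation ℂ A A)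
    (f : A) (hf : f ≠ 0) (hD : IsLN D) (h : ∀ a, D a = f * D' a) : D' f = 0 ∧ IsLN D' := by
  have h1 : D f = 0 := dvd_imp D hD ⟨D' f, h f⟩
  have h2 : D' f = 0 := by
    have h3 := h f
    rw [h1] at h3
    rcases mul_eq_zero.1 h3.symm with h4 | h4
    · exact absurd h4 hf
    · exact h4
  refine ⟨h2, fun a => ?_⟩
  have h3 : ∀ n, (⇑D)^[n] a = f ^ n * (⇑D')^[n] a := by
    intro n
    induction n with
    | zero => simp
    | succ n ih =>
      rw [Function.iterate_succ_apply', Function.iterate_succ_apply', ih, D.leibniz,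
        D.leibniz_pow, h1, smul_zero, smul_zero, smul_zero, add_zero, h, smul_eq_mul, pow_succ,
        mul_assoc]
  obtain ⟨n, hn⟩ := hD a
  refine ⟨n, ?_⟩
  rw [h3] at hn
  rcases mul_eq_zero.1 hn with h4 | h4
  · exact absurd h4 (pow_ne_zero n hf)
  · exact h4

end Vale.Agent.P295.Full
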