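import Vale.Agent.P295.Full.NoHomogAux
import Vale.Agent.P295.Full.LND
import Vale.Agent.P295.Full.Kernels
import Vale.Agent.P295.Full.RigidPoly

open MvPolynomial

namespace Vale.Agent.P295.Full

/-! ## T6: no homogeneous LND -/
theorem no_homog (e : ℤ) (D : Derivation ℂ A3 A3) (hLN : IsLN D) (hF : D Fh = 0)
    (hh : ∀ m f, IsWeightedHomogeneous wt f m → IsWeightedHomogeneous wt (D f) (m + e)) :
    D = 0 :=
  nh_aux (fun D η h1 h2 => exists_exp D η h1 h2) (fun D D' f h1 h2 h3 => smul_LN D D' f h1 h2 h3)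
    etah_eq_zero_iff (fun x y z h g m h1 h2 h3 h4 => rigid_form x y z h g m h1 h2 h3 h4)
    (e.toNat + 1) e (by
      have := Int.self_le_toNat e
      push_cast
      omega) D hLN hF hh

end Vale.Agent.P295.Full
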