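import Vale.Agent.P295.Full.RingB2
attribute [-instance] ProperSMul.toContinuousSMul IsTopologicalTorsor.toContinuousSMul IdemSemiring.toCanonicallyOrderedAdd IdemSemiring.toMulLeftMono IdemSemiring.toMulRightMono AddQuantale.instAddLeftMono AddQuantale.instAddRightMono Quantale.instMulLeftMono Quantale.instMulRightMono FiniteDimensional.rclike_to_real IsScalarTower.complexToReal FiniteDimensional.complexToReal

open MvPolynomial

namespace Vale.Agent.P295.Full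

/-- `B[w]` as a ℂ-subalgebra. -/
noncomputable def BW : Subalgebra ℂ S7 :=
  ((aeval (R := BB) Ws : MvPolynomial (Fin 3) BB →ₐ[BB] S7).restrictScalars ℂ).range

theorem BB_le_BW : BB ≤ BW := by
  intro s hs
  refine ⟨C ⟨s, hs⟩, ?_⟩
  change aeval Ws (C (⟨s, hs⟩ : BB)) = s
  rw [aeval_C]; rfl

theorem Ws_mem (i : Fin 3) : Ws i ∈ BW := by
  refine ⟨X i, ?_⟩
  change aeval Ws (X i) = Ws i
  rw [aeval_X]

theorem W0_mem : W0 ∈ BW := Ws_mem 0
theorem W1_mem : W1 ∈ BW := Ws_mem 1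
theorem W2_mem : W2 ∈ BW := Ws_mem 2

/-- `B + t B[w]` -/
noncomputable def EE : Subalgebra ℂ S7 where
  carrier := {s | ∃ c ∈ BB, ∃ g ∈ BW, s = c + X 0 * g}
  mul_mem' := by
    rintro a b ⟨c, hc, g, hg, rfl⟩ ⟨c', hc', g', hg', rfl⟩
    refine ⟨c * c', BB.mul_mem hc hc', c * g' + c' * g + X 0 * g * g', ?_, by ring⟩
    exact BW.add_mem (BW.add_mem (BW.mul_mem (BB_le_BW hc) hg') (BW.mul_mem (BB_le_BW hc') hg))
      (BW.mul_mem (BW.mul_mem (BB_le_BW X0_mem) hg) hg')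
  add_mem' := by
    rintro a b ⟨c, hc, g, hg, rfl⟩ ⟨c', hc', g', hg', rfl⟩
    exact ⟨c + c', BB.add_mem hc hc', g + g', BW.add_mem hg hg', by ring⟩
  algebraMap_mem' := by
    intro r
    exact ⟨algebraMap ℂ S7 r, BB.algebraMap_mem r, 0, BW.zero_mem, by ring⟩

theorem BB_le_EE : BB ≤ EE := fun s hs => ⟨s, hs, 0, BW.zero_mem, by ring⟩

theorem EE_le_BW : EE ≤ BW := by
  rintro s ⟨c, hc, g, hg, rfl⟩
  exact BW.add_mem (BB_le_BW hc) (BW.mul_mem (BB_le_BW X0_mem) hg)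

theorem EE_div (s : S7) (h : X 0 * s ∈ EE) : s ∈ BW := by
  obtain ⟨c, hc, g, hg, h⟩ := h
  have h1 : X 0 * (s - g) = c := by rw [mul_sub, h]; ring
  have h2 : s - g ∈ BB := BB_div _ (by rw [h1]; exact hc)
  have h3 : s = (s - g) + g := by ring
  rw [h3]
  exact BW.add_mem (BB_le_BW h2) hg

theorem X1_mem : (X 1 : S7) ∈ EE := by
  refine ⟨cS * sg U1 U2 U3 DS, BB.mul_mem cS_mem (sg_mem U1_mem U2_mem U3_mem DS_mem), W0, W0_mem,
    ?_⟩
  rw [W0_spec]; ring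

theorem X2_mem : (X 2 : S7) ∈ EE := by
  refine ⟨DS - cS * sg U1 U2 U3 DS,
    BB.sub_mem DS_mem (BB.mul_mem cS_mem (sg_mem U1_mem U2_mem U3_mem DS_mem)), W1, W1_mem,
    ?_⟩
  rw [W1_spec]; ring

noncomputable def O1 : S7 := gom1 cS (X 1) (X 2) (X 3) (X 4) (X 5) mS
noncomputable def O2 : S7 := gom2 cS (X 1) (X 2) (X 3) (X 4) (X 5) mS
noncomputable def O3 : S7 := gom3 cS (X 1) (X 2) (X 3) (X 4) (X 5) mS

theorem O1_mem : O1 ∈ BW := by
  apply EE_div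
  have h : X 0 * O1 = U1 - phx (X 1) (X 2) := by rw [U1, gU1, O1]; ring
  rw [h]
  exact EE.sub_mem (BB_le_EE U1_mem) (phx_mem X1_mem X2_mem)

theorem O2_mem : O2 ∈ BW := by
  apply EE_div
  have h : X 0 * O2 = U2 - phy (X 1) (X 2) := by rw [U2, gU2, O2]; ring
  rw [h]
  exact EE.sub_mem (BB_le_EE U2_mem) (phy_mem X1_mem X2_mem)

theorem O3_mem : O3 ∈ BW := by
  apply EE_div
  have h : X 0 * O3 = U3 - phz (X 1) (X 2) := by rw [U3, gU3, O3]; ring
  rw [h]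
  exact EE.sub_mem (BB_le_EE U3_mem) (phz_mem X1_mem X2_mem)

theorem dotA_O : dotA (X 1) (X 2) O1 O2 O3 = mS :=
  dotA_gom cS (X 1) (X 2) (X 3) (X 4) (X 5) mS three_cS

theorem mS_mem : mS ∈ BW := by
  rw [← dotA_O]
  exact dotA_mem (EE_le_BW X1_mem) (EE_le_BW X2_mem) O1_mem O2_mem O3_mem

theorem X3_mem : (X 3 : S7) ∈ BW := by
  have h : (X 3 : S7) = O1 - (mS - W2) * be1 cS (X 1) (X 2) := by rw [O1, gom1, W2]; ring
  rw [h]
  exact BW.sub_mem O1_mem (BW.mul_mem (BW.sub_mem mS_mem W2_mem)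
    (be1_mem (EE_le_BW X1_mem) (EE_le_BW X2_mem)))

theorem X4_mem : (X 4 : S7) ∈ BW := by
  have h : (X 4 : S7) = O2 - (mS - W2) * be2 cS (X 1) (X 2) := by rw [O2, gom2, W2]; ring
  rw [h]
  exact BW.sub_mem O2_mem (BW.mul_mem (BW.sub_mem mS_mem W2_mem)
    (be2_mem (EE_le_BW X1_mem) (EE_le_BW X2_mem)))

theorem X5_mem : (X 5 : S7) ∈ BW := by
  have h : (X 5 : S7) = O3 - (mS - W2) * be3 (X 1) (X 2) := by rw [O3, gom3, W2]; ring
  rw [h]
  exact BW.sub_mem O3_mem (BW.mul_mem (BW.sub_mem mS_mem W2_mem)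
    (be3_mem (EE_le_BW X1_mem) (EE_le_BW X2_mem)))

theorem QS_mem : QS ∈ BW := by
  have h : QS = fQ (phx (X 1) (X 2)) (phy (X 1) (X 2)) O1 O2 O3 (X 0) := by
    rw [QS, gQ, O1, O2, O3]
  rw [h]
  exact fQ_mem (phx_mem (EE_le_BW X1_mem) (EE_le_BW X2_mem))
    (phy_mem (EE_le_BW X1_mem) (EE_le_BW X2_mem)) O1_mem O2_mem O3_mem (BB_le_BW X0_mem)

theorem X6_mem : (X 6 : S7) ∈ BW := by
  have h1 : X 6 + QS ∈ BW := by
    apply EE_div
    have h : X 0 * (X 6 + QS) = DS - (X 1 + X 2) := by rw [DS, mS]; ring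
    rw [h]
    exact EE.sub_mem (BB_le_EE DS_mem) (EE.add_mem X1_mem X2_mem)
  have h2 : (X 6 : S7) = (X 6 + QS) - QS := by ring
  rw [h2]
  exact BW.sub_mem h1 QS_mem

theorem BW_eq_top : BW = ⊤ := by
  rw [eq_top_iff, ← adjoin_range_X]
  apply Algebra.adjoin_le
  rintro _ ⟨i, rfl⟩
  fin_cases i
  · exact BB_le_BW X0_mem
  · exact EE_le_BW X1_mem
  · exact EE_le_BW X2_mem
  · exact X3_mem
  · exact X4_mem
  · exact X5_mem
  · exact X6_mem

theorem aeval_Ws_surjective :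
    Function.Surjective (aeval (R := BB) Ws : MvPolynomial (Fin 3) BB →ₐ[BB] S7) := by
  intro s
  have h : s ∈ BW := by rw [BW_eq_top]; exact Algebra.mem_top
  obtain ⟨p, hp⟩ := h
  exact ⟨p, hp⟩

noncomputable def pi7 : S7 →ₐ[ℂ] P2 := aeval ![0, X 0, X 1, 0, 0, 0, 0]

theorem exists_B : ∃ (B : Subalgebra ℂ (MvPolynomial (Fin 7) ℂ)) (htB : X 0 ∈ B)
    (u : Polynomial A3 →ₐ[ℂ] MvPolynomial (Fin 7) ℂ) (π : MvPolynomial (Fin 7) ℂ →ₐ[ℂ] P2)
    (e : MvPolynomial (Fin 3) B ≃ₐ[ℂ] MvPolynomial (Fin 7) ℂ),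
    Function.Injective u ∧ u Polynomial.X = X 0 ∧ (∀ f, u f ∈ B) ∧
    (∀ s ∈ B, ∃ (n : ℕ) (f : Polynomial A3), X 0 ^ n * s = u f) ∧
    (∀ s : MvPolynomial (Fin 7) ℂ, X 0 * s ∈ B → s ∈ B) ∧
    (∃ d ∈ B, u (Polynomial.C F) = X 0 * d) ∧ π (X 0) = 0 ∧
    (∀ f : Polynomial A3, π (u f) = eta (f.coeff 0)) ∧
    e (C ⟨X 0, htB⟩) = X 0 := by
  let e : MvPolynomial (Fin 3) BB ≃ₐ[ℂ] S7 :=
    AlgEquiv.ofBijective
      ((aeval (R := BB) Ws : MvPolynomial (Fin 3) BB →ₐ[BB] S7).restrictScalars ℂ)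
      ⟨aeval_Ws_injective, aeval_Ws_surjective⟩
  refine ⟨BB, X0_mem, u7, pi7, e, u7_injective, u7_X, u7_mem, fun s hs => hs, BB_div,
    ⟨DS, DS_mem, by rw [u7_C, uU_F]⟩, by simp [pi7], ?_, ?_⟩
  · have p0 : pi7 (X 0) = 0 := by simp [pi7]
    have p1 : pi7 (X 1) = X 0 := by simp [pi7]
    have p2 : pi7 (X 2) = X 1 := by simp [pi7]
    have q1 : pi7 U1 = phx (X 0) (X 1) := by
      rw [U1, gU1, map_add, map_mul, p0, zero_mul, add_zero]
      have := map_phx (pi7 : S7 →+* P2) (X 1) (X 2)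
      simp only [RingHom.coe_coe, p1, p2] at this
      exact this
    have q2 : pi7 U2 = phy (X 0) (X 1) := by
      rw [U2, gU2, map_add, map_mul, p0, zero_mul, add_zero]
      have := map_phy (pi7 : S7 →+* P2) (X 1) (X 2)
      simp only [RingHom.coe_coe, p1, p2] at this
      exact this
    have q3 : pi7 U3 = phz (X 0) (X 1) := by
      rw [U3, gU3, map_add, map_mul, p0, zero_mul, add_zero]
      have := map_phz (pi7 : S7 →+* P2) (X 1) (X 2)
      simp only [RingHom.coe_coe, p1, p2] at this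
      exact this
    have key : ∀ f : A3, pi7 (uU f) = eta f := by
      intro f
      have : pi7.comp uU = eta := by
        apply MvPolynomial.algHom_ext
        intro i
        fin_cases i
        · change pi7 (uU (X 0)) = eta (X 0)
          rw [uU_X0, q1]; simp [eta]
        · change pi7 (uU (X 1)) = eta (X 1)
          rw [uU_X1, q2]; simp [eta]
        · change pi7 (uU (X 2)) = eta (X 2)
          rw [uU_X2, q3]; simp [eta]
      rw [← this]; rfl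
    intro f
    have h : Polynomial.X * f.divX + Polynomial.C (f.coeff 0) = f :=
      Polynomial.X_mul_divX_add f
    have h2 : pi7 (u7 f) = pi7 (u7 (Polynomial.X * f.divX + Polynomial.C (f.coeff 0))) := by
      rw [h]
    rw [h2, map_add, map_mul, u7_X, u7_C, map_add, map_mul, p0, zero_mul, zero_add, key]
  · change aeval Ws (C (⟨X 0, X0_mem⟩ : BB)) = X 0
    rw [aeval_C]; rfl

end Vale.Agent.P295.Full
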