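import Vale.Agent.P295.MathlibUsed
import Vale.Agent.P295.Defs

open MvPolynomial

namespace Vale.Agent.P295.Full

/-- Local nilpotency of a derivation. -/
def IsLN {A : Type} [CommRing A] [Algebra ℂ A] (D : Derivation ℂ A A) : Prop :=
  ∀ a : A, ∃ n : ℕ, (⇑D)^[n] a = 0

/-- ℂ[x,y,z]. -/
abbrev A3 : Type := MvPolynomial (Fin 3) ℂ

/-- ℂ[b,v]. -/
abbrev P2 : Type := MvPolynomial (Fin 2) ℂ

section generic
variable {R : Type} [CommRing R]

/-- the polynomial F = z^2+z+xy(x-y) as a function -/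
def fF (x y z : R) : R := z ^ 2 + z + x * y * (x - y)
/-- partial derivatives of F -/
def fa1 (x y : R) : R := y * (2 * x - y)
def fa2 (x y : R) : R := x * (x - 2 * y)
def fa3 (z : R) : R := 2 * z + 1
/-- parametrization of F = 0 -/
def phx (b v : R) : R := v * (1 + b * (b - 1) * v)
def phy (b v : R) : R := b * phx b v + b + b * (b - 1) * v
def phz (b v : R) : R := (b + b * (b - 1) * v) * phx b v + b * (b - 1) * v
/-- three times b as a polynomial in x,y,z,d (d = b+v) -/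
def sg (x y z d : R) : R :=
  x ^ 4 - x ^ 2 * z * d + x * y * z + 2 * x * y ^ 2 + 2 * x * y ^ 2 * d - 4 * y ^ 3
    + 2 * y * z * d - 5 * x * z * d + 4 * y * z - 9 * x * z + 4 * y ^ 2 * d - 6 * y ^ 2
    + 3 * x * y + 9 * x ^ 2 - 7 * z - x ^ 3 * d - 2 * x * y * d + 6 * y * d + 5 * x ^ 3
    - 5 * x ^ 2 * d + 3 * y - 9 * x * d - x ^ 2 * y * d + 2 * x ^ 3 * y - 2 * x * y * z * d
    + 2 * y ^ 2 * z

theorem fF_ph (b v : R) : fF (phx b v) (phy b v) (phz b v) = 0 := by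
  simp only [fF, phx, phy, phz]; ring

theorem sg_ph (b v : R) : sg (phx b v) (phy b v) (phz b v) (b + v) = 3 * b := by
  simp only [sg, phx, phy, phz]; ring

end generic

/-- F = z^2+z+xy(x-y) -/
noncomputable def F : A3 := fF (X 0) (X 1) (X 2)
/-- leading form z^2+xy(x-y) -/
noncomputable def Fh : A3 := X 2 ^ 2 + X 0 * X 1 * (X 0 - X 1)

noncomputable def eta : A3 →ₐ[ℂ] P2 :=
  aeval ![phx (X 0) (X 1), phy (X 0) (X 1), phz (X 0) (X 1)]

noncomputable def etah : A3 →ₐ[ℂ] P2 :=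
  aeval ![X 0 * (X 0 - 1) * X 1 ^ 2, X 0 * (X 0 * (X 0 - 1) * X 1 ^ 2),
    (X 0 * (X 0 - 1)) ^ 2 * X 1 ^ 3]

/-- weights (2,2,3) -/
def wt : Fin 3 → ℤ := ![2, 2, 3]

end Vale.Agent.P295.Full
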