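import Mathlib
import Vale.Agent.P295.Full.Setup

open MvPolynomial

namespace Vale.Agent.P295.Full

/-- Weighted homogeneous components of a product with a monomial. -/
theorem homog_whc_monomial_mul (s : Fin 3 →₀ ℕ) (k : ℂ) (g : A3) (n : ℤ) :
    weightedHomogeneousComponent wt n (monomial s k * g) =
      monomial s k * weightedHomogeneousComponent wt (n - Finsupp.weight wt s) g := by
  classical
  ext x
  rw [coeff_weightedHomogeneousComponent, coeff_monomial_mul', coeff_monomial_mul',
    coeff_weightedHomogeneousComponent]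
  by_cases h : s ≤ x
  · have h1 : Finsupp.weight wt x = Finsupp.weight wt s + Finsupp.weight wt (x - s) := by
      rw [← map_add, add_tsub_cancel_of_le h]
    rw [if_pos h, if_pos h, h1]
    by_cases h2 : Finsupp.weight wt (x - s) = n - Finsupp.weight wt s
    · rw [if_pos h2, if_pos (by omega)]
    · rw [if_neg h2, if_neg (by omega), mul_zero]
  · rw [if_neg h, if_neg h, ite_self]

/-- A derivation on a monomial. -/
theorem homog_D_monomial (D : Derivation ℂ A3 A3) (s : Fin 3 →₀ ℕ) (r : ℂ) :
    D (monomial s r) =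
      r • s.sum fun i k => monomial (s - Finsupp.single i 1) (k : ℂ) * D (X i) := by
  have h : D = mkDerivation ℂ (fun j => D (X j)) := by
    apply derivation_ext
    intro i
    rw [mkDerivation_X]
  conv_lhs => rw [h]
  rw [mkDerivation_monomial]
  rfl

/-- The leading part of a derivation. -/
noncomputable def homogPart (D : Derivation ℂ A3 A3) (e : ℤ) : Derivation ℂ A3 A3 :=
  mkDerivation ℂ (fun j => weightedHomogeneousComponent wt (wt j + e) (D (X j)))

theorem homog_key_monomial (D : Derivation ℂ A3 A3) (e : ℤ)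
    (he : ∀ j, ∀ d ∈ (D (X j)).support, Finsupp.weight wt d ≤ wt j + e)
    (s : Fin 3 →₀ ℕ) (r : ℂ) (n : ℤ) (hn : Finsupp.weight wt s + e ≤ n) :
    weightedHomogeneousComponent wt n (D (monomial s r)) =
      homogPart D e (weightedHomogeneousComponent wt (n - e) (monomial s r)) := by
  have hs : IsWeightedHomogeneous wt (monomial s r) (Finsupp.weight wt s) :=
    isWeightedHomogeneous_monomial wt s r rfl
  rw [homog_D_monomial, map_smul, Finsupp.sum, map_sum]
  rcases hn.eq_or_lt with h | h
  · have h1 : n - e = Finsupp.weight wt s := by omega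
    rw [h1, hs.weightedHomogeneousComponent_same, homog_D_monomial, Finsupp.sum]
    congr 1
    refine Finset.sum_congr rfl fun i hi => ?_
    have hi0 : s i ≠ 0 := Finsupp.mem_support_iff.1 hi
    have h2 := Finsupp.weight_sub_single_add (w := wt) hi0
    rw [homog_whc_monomial_mul, homogPart, mkDerivation_X]
    congr 3
    omega
  · rw [hs.weightedHomogeneousComponent_ne (n - e) (by omega), map_zero]
    refine smul_eq_zero_of_right _ (Finset.sum_eq_zero fun i hi => ?_)
    have hi0 : s i ≠ 0 := Finsupp.mem_support_iff.1 hi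
    have h2 := Finsupp.weight_sub_single_add (w := wt) hi0
    rw [homog_whc_monomial_mul, weightedHomogeneousComponent_eq_zero', mul_zero]
    intro d hd h3
    have := he i d hd
    omega

theorem homog_key (D : Derivation ℂ A3 A3) (e : ℤ)
    (he : ∀ j, ∀ d ∈ (D (X j)).support, Finsupp.weight wt d ≤ wt j + e)
    (f : A3) (m : ℤ) (hf : ∀ d ∈ f.support, Finsupp.weight wt d ≤ m) (n : ℤ)
    (hn : m + e ≤ n) :
    weightedHomogeneousComponent wt n (D f) =
      homogPart D e (weightedHomogeneousComponent wt (n - e) f) := by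
  have h1 : D f = ∑ d ∈ f.support, D (monomial d (coeff d f)) := by
    conv_lhs => rw [f.as_sum]
    rw [map_sum]
  have h2 : weightedHomogeneousComponent wt (n - e) f =
      ∑ d ∈ f.support, weightedHomogeneousComponent wt (n - e) (monomial d (coeff d f)) := by
    conv_lhs => rw [f.as_sum]
    rw [map_sum]
  rw [h1, h2, map_sum, map_sum]
  refine Finset.sum_congr rfl fun d hd => homog_key_monomial D e he d _ n ?_
  have := hf d hd
  omega

theorem homog_support (D : Derivation ℂ A3 A3) (e : ℤ)
    (he : ∀ j, ∀ d ∈ (D (X j)).support, Finsupp.weight wt d ≤ wt j + e)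
    (f : A3) (m : ℤ) (hf : ∀ d ∈ f.support, Finsupp.weight wt d ≤ m) :
    ∀ d ∈ (D f).support, Finsupp.weight wt d ≤ m + e := by
  classical
  intro d hd
  by_contra hcon
  push Not at hcon
  have h1 := homog_key D e he f m hf (Finsupp.weight wt d) hcon.le
  have h2 : weightedHomogeneousComponent wt (Finsupp.weight wt d - e) f = 0 := by
    apply weightedHomogeneousComponent_eq_zero'
    intro d' hd' h3
    have := hf d' hd'
    omega
  rw [h2, map_zero] at h1
  have h3 := congrArg (coeff d) h1
  rw [coeff_weightedHomogeneousComponent, if_pos rfl, coeff_zero] at h3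
  exact (mem_support_iff.1 hd) h3

theorem homog_support_of_homog {f : A3} {m : ℤ} (hf : IsWeightedHomogeneous wt f m) :
    ∀ d ∈ f.support, Finsupp.weight wt d ≤ m := fun _ hd => (hf (mem_support_iff.1 hd)).le

theorem homog_iterate (D : Derivation ℂ A3 A3) (e : ℤ)
    (he : ∀ j, ∀ d ∈ (D (X j)).support, Finsupp.weight wt d ≤ wt j + e)
    (f : A3) (m : ℤ) (hf : IsWeightedHomogeneous wt f m) (n : ℕ) :
    (∀ d ∈ ((⇑D)^[n] f).support, Finsupp.weight wt d ≤ m + n * e) ∧
      weightedHomogeneousComponent wt (m + n * e) ((⇑D)^[n] f) = (⇑(homogPart D e))^[n] f := by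
  induction n with
  | zero =>
    refine ⟨?_, ?_⟩
    · simpa using homog_support_of_homog hf
    · simpa using hf.weightedHomogeneousComponent_same
  | succ n ih =>
    obtain ⟨h1, h2⟩ := ih
    have e1 : m + ((n + 1 : ℕ) : ℤ) * e = m + n * e + e := by push_cast; ring
    rw [e1, Function.iterate_succ_apply', Function.iterate_succ_apply']
    refine ⟨homog_support D e he _ _ h1, ?_⟩
    rw [homog_key D e he _ _ h1 _ le_rfl, add_sub_cancel_right, h2]

theorem homog_iterate_zero (D : Derivation ℂ A3 A3) (n : ℕ) : (⇑D)^[n] 0 = 0 := by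
  induction n with
  | zero => rfl
  | succ n ih => rw [Function.iterate_succ_apply', ih, map_zero]

theorem homog_iterate_add (D : Derivation ℂ A3 A3) (n : ℕ) (f g : A3) :
    (⇑D)^[n] (f + g) = (⇑D)^[n] f + (⇑D)^[n] g := by
  induction n with
  | zero => rfl
  | succ n ih => simp only [Function.iterate_succ_apply', ih, map_add]

theorem exists_homog (D : Derivation ℂ A3 A3) (hD : IsLN D) (h0 : D ≠ 0) (hF : D F = 0) :
    ∃ (e : ℤ) (D' : Derivation ℂ A3 A3), D' ≠ 0 ∧ IsLN D' ∧ D' Fh = 0 ∧
      ∀ m f, IsWeightedHomogeneous wt f m → IsWeightedHomogeneous wt (D' f) (m + e) := by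
  classical
  -- some `D (X j)` is nonzero
  obtain ⟨j₀, hj₀⟩ : ∃ j, D (X j) ≠ 0 := by
    by_contra hcon
    push Not at hcon
    apply h0
    apply derivation_ext
    intro i
    rw [hcon i]
    rfl
  obtain ⟨d₀, hd₀⟩ : (D (X j₀)).support.Nonempty := support_nonempty.2 hj₀
  -- the set of pairs
  let T : Finset (Fin 3 × (Fin 3 →₀ ℕ)) :=
    Finset.univ.biUnion fun j => (D (X j)).support.image fun d => (j, d)
  have hT : ∀ j d, (j, d) ∈ T ↔ d ∈ (D (X j)).support := by
    intro j d
    simp [T]
  obtain ⟨⟨j₁, d₁⟩, hm₁, hmax⟩ := T.exists_max_image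
    (fun q => Finsupp.weight wt q.2 - wt q.1) ⟨(j₀, d₀), (hT _ _).2 hd₀⟩
  have hd₁ : d₁ ∈ (D (X j₁)).support := (hT _ _).1 hm₁
  obtain ⟨e, hedef⟩ : ∃ e : ℤ, e = Finsupp.weight wt d₁ - wt j₁ := ⟨_, rfl⟩
  have he : ∀ j, ∀ d ∈ (D (X j)).support, Finsupp.weight wt d ≤ wt j + e := by
    intro j d hd
    have := hmax (j, d) ((hT _ _).2 hd)
    simp only at this
    omega
  refine ⟨e, homogPart D e, ?_, ?_, ?_, ?_⟩
  · -- nonzero
    intro h
    have h1 : homogPart D e (X j₁) = 0 := by rw [h]; rfl
    rw [homogPart, mkDerivation_X] at h1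
    have h2 := congrArg (coeff d₁) h1
    rw [coeff_weightedHomogeneousComponent, if_pos (by omega), coeff_zero] at h2
    exact (mem_support_iff.1 hd₁) h2
  · -- locally nilpotent
    intro f
    induction f using MvPolynomial.induction_on' with
    | monomial s r =>
      obtain ⟨n, hn⟩ := hD (monomial s r)
      refine ⟨n, ?_⟩
      rw [← (homog_iterate D e he _ _ (isWeightedHomogeneous_monomial wt s r rfl) n).2, hn,
        map_zero]
    | add f g hf hg =>
      obtain ⟨n, hn⟩ := hf
      obtain ⟨k, hk⟩ := hg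
      refine ⟨n + k, ?_⟩
      rw [homog_iterate_add]
      have h1 : (⇑(homogPart D e))^[n + k] f = 0 := by
        rw [add_comm, Function.iterate_add_apply, hn, homog_iterate_zero]
      have h2 : (⇑(homogPart D e))^[n + k] g = 0 := by
        rw [Function.iterate_add_apply, hk, homog_iterate_zero]
      rw [h1, h2, add_zero]
  · -- kills `Fh`
    have w0 : IsWeightedHomogeneous wt (X 0 : A3) 2 := isWeightedHomogeneous_X ℂ wt 0
    have w1 : IsWeightedHomogeneous wt (X 1 : A3) 2 := isWeightedHomogeneous_X ℂ wt 1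
    have w2 : IsWeightedHomogeneous wt (X 2 : A3) 3 := isWeightedHomogeneous_X ℂ wt 2
    have hFh : IsWeightedHomogeneous wt Fh 6 := by
      have h1 : IsWeightedHomogeneous wt (X 2 ^ 2 : A3) 6 := by
        simpa using w2.pow 2
      have h2 : IsWeightedHomogeneous wt (X 0 * X 1 * (X 0 - X 1) : A3) 6 := by
        simpa using (w0.mul w1).mul (w0.sub w1)
      exact h1.add h2
    have hFF : F = Fh + X 2 := by
      simp only [F, Fh, fF]
      ring
    have hsupp : ∀ d ∈ F.support, Finsupp.weight wt d ≤ 6 := by
      intro d hd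
      rw [hFF] at hd
      rcases Finset.mem_union.1 (support_add hd) with h | h
      · exact homog_support_of_homog hFh d h
      · exact (homog_support_of_homog w2 d h).trans (by norm_num)
    have h1 := homog_key D e he F 6 hsupp (6 + e) le_rfl
    rw [hF, map_zero, add_sub_cancel_right, hFF, map_add,
      hFh.weightedHomogeneousComponent_same,
      w2.weightedHomogeneousComponent_ne 6 (by norm_num), add_zero] at h1
    exact h1.symm
  · intro m f hf
    have h1 := homog_key D e he f m (homog_support_of_homog hf) (m + e) le_rfl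
    rw [add_sub_cancel_right, hf.weightedHomogeneousComponent_same] at h1
    rw [← h1]
    exact weightedHomogeneousComponent_isWeightedHomogeneous _ _

end Vale.Agent.P295.Full
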