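import Vale.Agent.P295.MathlibUsed
import Vale.Agent.P295.Full.Setup

open MvPolynomial

namespace Vale.Agent.P295.Full

/-- the partial derivative is locally nilpotent -/
theorem nt_pderiv_LN {m : ℕ} (i : Fin m) :
    IsLN (pderiv i : Derivation ℂ (MvPolynomial (Fin m) ℂ) (MvPolynomial (Fin m) ℂ)) := by
  have hz : ∀ n : ℕ, (⇑(pderiv i : Derivation ℂ (MvPolynomial (Fin m) ℂ)
      (MvPolynomial (Fin m) ℂ)))^[n] 0 = 0 := fun n =>
    Function.iterate_fixed (map_zero _) n
  have hmono : ∀ (n : ℕ) (s : Fin m →₀ ℕ) (c : ℂ), s i = n →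
      (⇑(pderiv i : Derivation ℂ (MvPolynomial (Fin m) ℂ)
        (MvPolynomial (Fin m) ℂ)))^[n + 1] (monomial s c) = 0 := by
    intro n
    induction n with
    | zero =>
      intro s c hs
      simp [pderiv_monomial, hs]
    | succ n ih =>
      intro s c hs
      rw [Function.iterate_succ_apply, pderiv_monomial]
      apply ih
      simp [hs]
  intro a
  induction a using MvPolynomial.induction_on' with
  | monomial s c => exact ⟨s i + 1, hmono _ s c rfl⟩
  | add p q hp hq =>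
    obtain ⟨n1, h1⟩ := hp
    obtain ⟨n2, h2⟩ := hq
    refine ⟨n1 + n2, ?_⟩
    rw [iterate_map_add, add_comm n1 n2, Function.iterate_add_apply, h1, hz, add_comm n2 n1,
      Function.iterate_add_apply, h2, hz, add_zero]

/-- if all partial derivatives other than the `j`-th one are divisible by `X j`, the polynomial is
a constant plus a multiple of `X j` -/
theorem nt_const_add {m : ℕ} (j : Fin m) (h : MvPolynomial (Fin m) ℂ)
    (hd : ∀ i, i ≠ j → (X j : MvPolynomial (Fin m) ℂ) ∣ pderiv i h) :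
    ∃ q, h = C (coeff 0 h) + X j * q := by
  have hdvd : (X j : MvPolynomial (Fin m) ℂ) ∣ h - C (coeff 0 h) := by
    rw [X_dvd_iff_modMonomial_eq_zero]
    ext s
    rw [coeff_zero]
    by_cases hs : Finsupp.single j 1 ≤ s
    · exact coeff_modMonomial_of_le _ hs
    · rw [coeff_modMonomial_of_not_le _ hs]
      have hsj : s j = 0 := by
        by_contra hne
        apply hs
        rw [Finsupp.single_le_iff]
        omega
      rw [coeff_sub, coeff_C]
      by_cases h0 : s = 0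
      · subst h0; simp
      · rw [if_neg (fun h => h0 h.symm), sub_zero]
        obtain ⟨i, hi⟩ := Finsupp.ne_iff.mp h0
        have hij : i ≠ j := by rintro rfl; exact hi hsj
        obtain ⟨g, hg⟩ := hd i hij
        have hc : coeff (s - Finsupp.single i 1) (pderiv i h) = 0 := by
          rw [hg, coeff_X_mul']
          rw [if_neg]
          simp [hsj]
        have hi' : s i ≠ 0 := hi
        have hsi : s - Finsupp.single i 1 + Finsupp.single i 1 = s := by
          ext a
          by_cases ha : a = i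
          · subst ha; simp; omega
          · simp [Ne.symm ha]
        rw [coeff_pderiv, hsi] at hc
        rcases mul_eq_zero.mp hc with h1 | h1
        · exact h1
        · exact absurd h1 (Nat.cast_add_one_ne_zero _)
  obtain ⟨q, hq⟩ := hdvd
  exact ⟨q, by rw [← hq]; ring⟩

/-- transport of a polynomial function along `u` and a derivation -/
theorem nt_lift {B : Type} [CommRing B] [Algebra ℂ B] (t : B)
    (u : Polynomial A3 →ₐ[ℂ] B) (hut : u Polynomial.X = t)
    (Δ : Derivation ℂ B B) (hΔt : Δ t = 0) (N : ℕ) (f : Fin 3 → Polynomial A3)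
    (hf : ∀ k, t ^ N * Δ (u (Polynomial.C (X k))) = u (f k)) (g : Polynomial A3) :
    ∃ g' : Polynomial A3, u g' = t ^ N * Δ (u g) ∧
      g'.coeff 0 = mkDerivation ℂ (fun k => (f k).coeff 0) (g.coeff 0) := by
  set D0 : Derivation ℂ A3 A3 := mkDerivation ℂ (fun k => (f k).coeff 0) with hD0
  have hadd : ∀ p q : Polynomial A3,
      (∃ g' : Polynomial A3, u g' = t ^ N * Δ (u p) ∧ g'.coeff 0 = D0 (p.coeff 0)) →
      (∃ g' : Polynomial A3, u g' = t ^ N * Δ (u q) ∧ g'.coeff 0 = D0 (q.coeff 0)) →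
      ∃ g' : Polynomial A3, u g' = t ^ N * Δ (u (p + q)) ∧ g'.coeff 0 = D0 ((p + q).coeff 0) := by
    rintro p q ⟨p', hp1, hp2⟩ ⟨q', hq1, hq2⟩
    refine ⟨p' + q', ?_, ?_⟩
    · rw [map_add, hp1, hq1, map_add, map_add]; ring
    · rw [Polynomial.coeff_add, hp2, hq2, Polynomial.coeff_add, map_add]
  have hmul : ∀ p q : Polynomial A3,
      (∃ g' : Polynomial A3, u g' = t ^ N * Δ (u p) ∧ g'.coeff 0 = D0 (p.coeff 0)) →
      (∃ g' : Polynomial A3, u g' = t ^ N * Δ (u q) ∧ g'.coeff 0 = D0 (q.coeff 0)) →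
      ∃ g' : Polynomial A3, u g' = t ^ N * Δ (u (p * q)) ∧ g'.coeff 0 = D0 ((p * q).coeff 0) := by
    rintro p q ⟨p', hp1, hp2⟩ ⟨q', hq1, hq2⟩
    refine ⟨p * q' + q * p', ?_, ?_⟩
    · rw [map_add, map_mul, map_mul, hp1, hq1, map_mul, Δ.leibniz]
      simp only [smul_eq_mul]; ring
    · rw [Polynomial.coeff_add, Polynomial.mul_coeff_zero, Polynomial.mul_coeff_zero, hp2, hq2,
        Polynomial.mul_coeff_zero, D0.leibniz]
      simp only [smul_eq_mul]
  have hC : ∀ a : A3, ∃ g' : Polynomial A3, u g' = t ^ N * Δ (u (Polynomial.C a)) ∧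
      g'.coeff 0 = D0 ((Polynomial.C a).coeff 0) := by
    intro a
    induction a using MvPolynomial.induction_on with
    | C c =>
      refine ⟨0, ?_, ?_⟩
      · have : u (Polynomial.C (C c)) = algebraMap ℂ B c := by
          rw [← u.commutes c]; rfl
        rw [this, Δ.map_algebraMap, mul_zero, map_zero]
      · rw [Polynomial.coeff_C_zero, Polynomial.coeff_zero]
        have : (C c : A3) = algebraMap ℂ A3 c := rfl
        rw [this, D0.map_algebraMap]
    | add p q hp hq =>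
      rw [Polynomial.C_add]
      exact hadd _ _ hp hq
    | mul_X p k hp =>
      rw [Polynomial.C_mul]
      refine hmul _ _ hp ⟨f k, (hf k).symm, ?_⟩
      rw [Polynomial.coeff_C_zero, hD0, mkDerivation_X]
  induction g using Polynomial.induction_on with
  | C a => exact hC a
  | add p q hp hq => exact hadd _ _ hp hq
  | monomial n a h =>
    rw [pow_succ, ← mul_assoc]
    refine hmul _ _ h ⟨0, ?_, ?_⟩
    · rw [hut, hΔt, mul_zero, map_zero]
    · rw [Polynomial.coeff_X_zero, map_zero, Polynomial.coeff_zero]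

theorem nt_pow_iter {B : Type} [CommRing B] [Algebra ℂ B] (t : B) (Δ : Derivation ℂ B B)
    (hΔt : Δ t = 0) (N : ℕ) (b : B) (n : ℕ) :
    (fun x => t ^ N * Δ x)^[n] b = t ^ (N * n) * (⇑Δ)^[n] b := by
  induction n with
  | zero => simp
  | succ n ih =>
    rw [Function.iterate_succ_apply', Function.iterate_succ_apply', ih, Δ.leibniz,
      Δ.leibniz_pow, hΔt]
    simp only [smul_eq_mul, mul_zero, smul_zero, add_zero]
    ring

/-- the induced derivation at `t = 0` is locally nilpotent -/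
theorem nt_LN {B : Type} [CommRing B] [Algebra ℂ B] (t : B)
    (u : Polynomial A3 →ₐ[ℂ] B) (hu : Function.Injective u) (hut : u Polynomial.X = t)
    (Δ : Derivation ℂ B B) (hLN : IsLN Δ) (hΔt : Δ t = 0) (N : ℕ) (f : Fin 3 → Polynomial A3)
    (hf : ∀ k, t ^ N * Δ (u (Polynomial.C (X k))) = u (f k)) :
    IsLN (mkDerivation ℂ (fun k => (f k).coeff 0) : Derivation ℂ A3 A3) := by
  intro a
  set D0 : Derivation ℂ A3 A3 := mkDerivation ℂ (fun k => (f k).coeff 0) with hD0
  have hit : ∀ n : ℕ, ∃ g : Polynomial A3,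
      u g = (fun x => t ^ N * Δ x)^[n] (u (Polynomial.C a)) ∧ g.coeff 0 = (⇑D0)^[n] a := by
    intro n
    induction n with
    | zero => exact ⟨Polynomial.C a, rfl, Polynomial.coeff_C_zero⟩
    | succ n ih =>
      obtain ⟨g, h1, h2⟩ := ih
      obtain ⟨g', h3, h4⟩ := nt_lift t u hut Δ hΔt N f hf g
      refine ⟨g', ?_, ?_⟩
      · rw [h3, h1, Function.iterate_succ_apply']
      · rw [h4, h2, Function.iterate_succ_apply']
  obtain ⟨n, hn⟩ := hLN (u (Polynomial.C a))
  obtain ⟨g, h1, h2⟩ := hit n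
  refine ⟨n, ?_⟩
  rw [nt_pow_iter t Δ hΔt, hn, mul_zero] at h1
  have hg : g = 0 := hu (by rw [h1, map_zero])
  rw [← h2, hg, Polynomial.coeff_zero]

/-- main divisibility claim -/
theorem nt_key
    (hrigid : ∀ D : Derivation ℂ A3 A3, IsLN D → D F = 0 → D = 0)
    (hdvd : ∀ D : Derivation ℂ A3 A3, IsLN D → ∀ f : A3, f ∣ D f → D f = 0)
    (hsmul : ∀ (D D' : Derivation ℂ A3 A3) (f : A3), f ≠ 0 → IsLN D → (∀ a, D a = f * D' a) →
      D' f = 0 ∧ IsLN D')
    (heta : ∀ f : A3, eta f = 0 → F ∣ f) (hF0 : F ≠ 0)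
    {B : Type} [CommRing B] [IsDomain B] [Algebra ℂ B] (t : B) (ht0 : t ≠ 0)
    (u : Polynomial A3 →ₐ[ℂ] B) (hu : Function.Injective u) (hut : u Polynomial.X = t)
    (hsat : ∀ s : B, ∃ (n : ℕ) (f : Polynomial A3), t ^ n * s = u f)
    (d : B) (hF : u (Polynomial.C F) = t * d) (π : B →ₐ[ℂ] P2) (hπt : π t = 0)
    (hπu : ∀ f : Polynomial A3, π (u f) = eta (f.coeff 0))
    (Δ : Derivation ℂ B B) (hLN : IsLN Δ) (hΔt : Δ t = 0) (k : Fin 3) :
    ∃ q, Δ (u (Polynomial.C (X k))) = t * q := by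
  classical
  -- common exponent
  have hex : ∃ N : ℕ, ∀ k : Fin 3, ∃ f, t ^ N * Δ (u (Polynomial.C (X k))) = u f := by
    choose n f hnf using fun k : Fin 3 => hsat (Δ (u (Polynomial.C (X k))))
    refine ⟨∑ k, n k, fun k => ⟨Polynomial.X ^ ((∑ k, n k) - n k) * f k, ?_⟩⟩
    have hle : n k ≤ ∑ k, n k := Finset.single_le_sum (fun _ _ => Nat.zero_le _) (Finset.mem_univ k)
    rw [map_mul, map_pow, hut, ← hnf, ← mul_assoc, ← pow_add, Nat.sub_add_cancel hle]
  set N := Nat.find hex with hN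
  have hNspec := Nat.find_spec hex
  rw [← hN] at hNspec
  choose f hf using hNspec
  have hdivX : ∀ k, (f k).coeff 0 = 0 → ∃ g, f k = Polynomial.X * g := by
    intro k hk
    exact Polynomial.X_dvd_iff.mpr hk
  have hLN0 := nt_LN t u hu hut Δ hLN hΔt N f hf
  set D0 : Derivation ℂ A3 A3 := mkDerivation ℂ (fun k => (f k).coeff 0) with hD0
  have hD0X : ∀ k, D0 (X k) = (f k).coeff 0 := fun k => by rw [hD0, mkDerivation_X]
  rcases Nat.eq_zero_or_pos N with hN0 | hNpos
  · -- N = 0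
    by_cases hz : D0 = 0
    · have h0 : (f k).coeff 0 = 0 := by rw [← hD0X, hz]; rfl
      obtain ⟨g, hg⟩ := hdivX k h0
      refine ⟨u g, ?_⟩
      have := hf k
      rw [hN0, pow_zero, one_mul] at this
      rw [this, hg, map_mul, hut]
    · exfalso
      apply hz
      apply hrigid D0 hLN0
      apply hdvd D0 hLN0
      apply heta
      obtain ⟨g', h1, h2⟩ := nt_lift t u hut Δ hΔt N f hf (Polynomial.C F)
      rw [hN0, pow_zero, one_mul, hF, Δ.leibniz, hΔt] at h1
      simp only [smul_eq_mul, mul_zero, add_zero] at h1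
      have h3 : π (u g') = eta (g'.coeff 0) := hπu g'
      rw [h1, map_mul, hπt, zero_mul, h2, Polynomial.coeff_C_zero] at h3
      exact h3.symm
  · -- N ≥ 1
    exfalso
    have hne : D0 ≠ 0 := by
      intro hz
      have hmin : ¬ ∀ k : Fin 3, ∃ f, t ^ (N - 1) * Δ (u (Polynomial.C (X k))) = u f :=
        Nat.find_min hex (by rw [← hN]; omega)
      apply hmin
      intro k
      have h0 : (f k).coeff 0 = 0 := by rw [← hD0X, hz]; rfl
      obtain ⟨g, hg⟩ := hdivX k h0
      refine ⟨g, ?_⟩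
      have h1 := hf k
      rw [hg, map_mul, hut] at h1
      have h2 : t ^ N = t * t ^ (N - 1) := by
        rw [← pow_succ']; congr 1; omega
      rw [h2, mul_assoc] at h1
      exact mul_left_cancel₀ ht0 h1
    have hdiv : ∀ k, F ∣ D0 (X k) := by
      intro k
      apply heta
      rw [hD0X, ← hπu, ← hf k, map_mul, map_pow, hπt, zero_pow hNpos.ne', zero_mul]
    choose c hc using hdiv
    set D' : Derivation ℂ A3 A3 := mkDerivation ℂ c with hD'
    have hmulD : ∀ a, D0 a = F * D' a := by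
      have : D0 = F • D' := by
        apply derivation_ext
        intro i
        rw [hc, hD', Derivation.smul_apply, mkDerivation_X, smul_eq_mul]
      intro a
      rw [this, Derivation.smul_apply, smul_eq_mul]
    obtain ⟨h1, h2⟩ := hsmul D0 D' F hF0 hLN0 hmulD
    have h3 := hrigid D' h2 h1
    apply hne
    ext a
    rw [hmulD, h3]
    simp

theorem nt_F_ne : F ≠ 0 := by
  intro h
  have h1 : aeval (![0, 0, 1] : Fin 3 → ℂ) F = 0 := by rw [h, map_zero]
  simp [F, fF] at h1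

/-- the first component of the parametrization is not a constant -/
theorem nt_eta_X0 (c : ℂ) : eta (X 0) ≠ C c := by
  intro h
  have h1 : eta (X 0) = phx (X 0 : P2) (X 1) := by simp [eta]
  rw [h1] at h
  have h2 := congrArg (aeval (![0, 0] : Fin 2 → ℂ)) h
  have h3 := congrArg (aeval (![0, 1] : Fin 2 → ℂ)) h
  simp [phx] at h2 h3
  rw [← h2] at h3
  exact one_ne_zero h3

theorem nontriv_of
    (hrigid : ∀ D : Derivation ℂ A3 A3, IsLN D → D F = 0 → D = 0)
    (hdvd : ∀ D : Derivation ℂ A3 A3, IsLN D → ∀ f : A3, f ∣ D f → D f = 0)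
    (hsmul : ∀ (D D' : Derivation ℂ A3 A3) (f : A3), f ≠ 0 → IsLN D → (∀ a, D a = f * D' a) →
      D' f = 0 ∧ IsLN D')
    (heta : ∀ f : A3, eta f = 0 → F ∣ f)
    {S : Type} [CommRing S] [IsDomain S] [Algebra ℂ S] (B : Subalgebra ℂ S) (t : S)
    (htB : t ∈ B) (ht0 : t ≠ 0) (u : Polynomial A3 →ₐ[ℂ] S) (hu : Function.Injective u)
    (hut : u Polynomial.X = t) (huB : ∀ f, u f ∈ B)
    (hsat : ∀ s ∈ B, ∃ (n : ℕ) (f : Polynomial A3), t ^ n * s = u f)
    (hF : ∃ d ∈ B, u (Polynomial.C F) = t * d) (π : S →ₐ[ℂ] P2) (hπt : π t = 0)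
    (hπu : ∀ f : Polynomial A3, π (u f) = eta (f.coeff 0)) :
    ¬ ∃ (e : B ≃ₐ[ℂ] MvPolynomial (Fin 4) ℂ) (j : Fin 4), e ⟨t, htB⟩ = X j := by
  rintro ⟨e, j, he⟩
  obtain ⟨d, hdB, hd⟩ := hF
  let uB : Polynomial A3 →ₐ[ℂ] B := u.codRestrict B huB
  have huBinj : Function.Injective uB := by
    intro a b hab
    apply hu
    have := congrArg Subtype.val hab
    exact this
  have huBt : uB Polynomial.X = ⟨t, htB⟩ := Subtype.ext hut
  have hsat' : ∀ s : B, ∃ (n : ℕ) (f : Polynomial A3), (⟨t, htB⟩ : B) ^ n * s = uB f := by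
    rintro ⟨s, hs⟩
    obtain ⟨n, f, hnf⟩ := hsat s hs
    exact ⟨n, f, Subtype.ext hnf⟩
  have ht0' : (⟨t, htB⟩ : B) ≠ 0 := by
    intro h
    exact ht0 (congrArg Subtype.val h)
  have hdB' : uB (Polynomial.C F) = ⟨t, htB⟩ * ⟨d, hdB⟩ := Subtype.ext hd
  let πB : B →ₐ[ℂ] P2 := π.comp B.val
  have hπt' : πB ⟨t, htB⟩ = 0 := hπt
  have hπu' : ∀ f : Polynomial A3, πB (uB f) = eta (f.coeff 0) := hπu
  -- the derivations
  have hder : ∀ i : Fin 4, ∃ Δ : Derivation ℂ B B, ∀ b, Δ b = e.symm (pderiv i (e b)) := by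
    intro i
    refine ⟨Derivation.mk' ((e.symm.toLinearMap.comp
      ((pderiv i : Derivation ℂ (MvPolynomial (Fin 4) ℂ)
        (MvPolynomial (Fin 4) ℂ)) : MvPolynomial (Fin 4) ℂ →ₗ[ℂ] MvPolynomial (Fin 4) ℂ)).comp
        e.toLinearMap) ?_, fun b => rfl⟩
    intro a b
    change e.symm (pderiv i (e (a * b))) = a • e.symm (pderiv i (e b)) + b • e.symm (pderiv i (e a))
    rw [map_mul, Derivation.leibniz, map_add]
    simp only [smul_eq_mul, map_mul, AlgEquiv.symm_apply_apply]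
  have hclaim : ∀ i : Fin 4, i ≠ j →
      (X j : MvPolynomial (Fin 4) ℂ) ∣ pderiv i (e (uB (Polynomial.C (X 0)))) := by
    intro i hij
    obtain ⟨Δ, hΔ⟩ := hder i
    have hiter : ∀ (n : ℕ) (b : B), (⇑Δ)^[n] b = e.symm ((⇑(pderiv i : Derivation ℂ
        (MvPolynomial (Fin 4) ℂ) (MvPolynomial (Fin 4) ℂ)))^[n] (e b)) := by
      intro n
      induction n with
      | zero => intro b; simp
      | succ n ih =>
        intro b
        rw [Function.iterate_succ_apply, ih, hΔ, AlgEquiv.apply_symm_apply,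
          Function.iterate_succ_apply]
    have hLN : IsLN Δ := by
      intro b
      obtain ⟨n, hn⟩ := nt_pderiv_LN i (e b)
      exact ⟨n, by rw [hiter, hn, map_zero]⟩
    have hΔt : Δ ⟨t, htB⟩ = 0 := by
      rw [hΔ, he, pderiv_X_of_ne hij.symm, map_zero]
    obtain ⟨q, hq⟩ := nt_key hrigid hdvd hsmul heta nt_F_ne (⟨t, htB⟩ : B) ht0' uB huBinj huBt
      hsat' ⟨d, hdB⟩ hdB' πB hπt' hπu' Δ hLN hΔt 0
    refine ⟨e q, ?_⟩
    have h1 := congrArg e hq
    rw [hΔ, AlgEquiv.apply_symm_apply, map_mul, he] at h1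
    exact h1
  obtain ⟨q, hq⟩ := nt_const_add j _ hclaim
  have h1 := congrArg e.symm hq
  rw [AlgEquiv.symm_apply_apply, map_add, map_mul, ← he, AlgEquiv.symm_apply_apply] at h1
  have h2 := congrArg πB h1
  rw [hπu', Polynomial.coeff_C_zero, map_add, map_mul, hπt', zero_mul, add_zero] at h2
  refine nt_eta_X0 (coeff 0 (e (uB (Polynomial.C (X 0))))) (h2.trans ?_)
  have h3 : (C (coeff 0 (e (uB (Polynomial.C (X 0))))) : MvPolynomial (Fin 4) ℂ)
      = algebraMap ℂ _ (coeff 0 (e (uB (Polynomial.C (X 0))))) := rfl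
  rw [h3, AlgEquiv.commutes, AlgHom.commutes]
  rfl

end Vale.Agent.P295.Full
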