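import Vale.Agent.P295.Full.Setup

open MvPolynomial

namespace Vale.Agent.P295.Full

/-! ## T1: Step -/
/-- stable coordinate statement for 1-stable coordinates in n variables -/
def SCC (n : ℕ) : Prop :=
  ∀ f : MvPolynomial (Fin n) ℂ, IsStableCoordinateOfOrder 1 f → IsCoordinate f

/-- `ℂ[x_0..x_n] = ℂ[x_0..x_{n-1}][x_n]` -/
theorem step_exists_last (n : ℕ) : ∃ L : MvPolynomial (Fin (n + 1)) ℂ ≃ₐ[ℂ]
    Polynomial (MvPolynomial (Fin n) ℂ),
    (∀ p, L (rename (Fin.castAdd 1) p) = Polynomial.C p) ∧ L (X (Fin.last n)) = Polynomial.X := by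
  refine ⟨(renameEquiv ℂ (finRotate (n + 1))).trans (finSuccEquiv ℂ n), fun p => ?_, ?_⟩
  · have h : (((renameEquiv ℂ (finRotate (n + 1))).trans (finSuccEquiv ℂ n)).toAlgHom.comp
        (rename (Fin.castAdd 1) : MvPolynomial (Fin n) ℂ →ₐ[ℂ] _)) =
        Polynomial.CAlgHom := by
      apply MvPolynomial.algHom_ext
      intro i
      have h1 : finRotate (n + 1) (Fin.castAdd 1 i) = i.succ := by
        rw [finRotate_apply]
        exact Fin.coeSucc_eq_succ
      simp only [AlgHom.comp_apply, rename_X]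
      change finSuccEquiv ℂ n (renameEquiv ℂ (finRotate (n + 1)) (X (Fin.castAdd 1 i))) = _
      rw [renameEquiv_apply, rename_X, h1, finSuccEquiv_X_succ]
      rfl
    exact DFunLike.congr_fun h p
  · change finSuccEquiv ℂ n (renameEquiv ℂ (finRotate (n + 1)) (X (Fin.last n))) = _
    rw [renameEquiv_apply, rename_X, finRotate_last, finSuccEquiv_X_zero]

/-- any variable may be taken as the polynomial variable -/
theorem step_exists_var (n : ℕ) (i : Fin (n + 1)) : ∃ L : MvPolynomial (Fin (n + 1)) ℂ ≃ₐ[ℂ]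
    Polynomial (MvPolynomial (Fin n) ℂ), L (X i) = Polynomial.X := by
  refine ⟨(renameEquiv ℂ (Equiv.swap i 0)).trans (finSuccEquiv ℂ n), ?_⟩
  change finSuccEquiv ℂ n (renameEquiv ℂ (Equiv.swap i 0) (X i)) = _
  rw [renameEquiv_apply, rename_X, Equiv.swap_apply_left, finSuccEquiv_X_zero]

/-- the constant coefficient -/
noncomputable def step_cc (B : Type) [CommRing B] [Algebra ℂ B] : Polynomial B →ₐ[ℂ] B :=
  (Polynomial.aeval (R := B) (0 : B)).restrictScalars ℂ

theorem step_cc_apply {B : Type} [CommRing B] [Algebra ℂ B] (p : Polynomial B) :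
    step_cc B p = p.coeff 0 := by
  change Polynomial.aeval (R := B) (0 : B) p = _
  rw [Polynomial.coeff_zero_eq_aeval_zero]

theorem step_equiv_of_poly {A B : Type} [CommRing A] [Algebra ℂ A] [CommRing B] [Algebra ℂ B]
    (ψ : Polynomial A ≃ₐ[ℂ] Polynomial B) (hX : ψ Polynomial.X = Polynomial.X) :
    Nonempty (A ≃ₐ[ℂ] B) := by
  have key : ∀ {A B : Type} [CommRing A] [Algebra ℂ A] [CommRing B] [Algebra ℂ B]
      (ψ : Polynomial A ≃ₐ[ℂ] Polynomial B), ψ Polynomial.X = Polynomial.X → ∀ a : A,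
      (ψ.symm (Polynomial.C ((ψ (Polynomial.C a)).coeff 0))).coeff 0 = a := by
    intro A B _ _ _ _ ψ hX a
    have hX' : ψ.symm Polynomial.X = Polynomial.X := by rw [← hX, AlgEquiv.symm_apply_apply]
    have h1 := Polynomial.divX_mul_X_add (ψ (Polynomial.C a))
    have h2 := congrArg ψ.symm h1
    rw [map_add, map_mul, hX', AlgEquiv.symm_apply_apply] at h2
    have h3 := congrArg (fun p => Polynomial.coeff p 0) h2
    simpa using h3
  have hX' : ψ.symm Polynomial.X = Polynomial.X := by rw [← hX, AlgEquiv.symm_apply_apply]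
  refine ⟨AlgEquiv.ofAlgHom ((step_cc B).comp (ψ.toAlgHom.comp Polynomial.CAlgHom))
    ((step_cc A).comp (ψ.symm.toAlgHom.comp Polynomial.CAlgHom)) ?_ ?_⟩
  · ext b
    change step_cc B (ψ (Polynomial.C (step_cc A (ψ.symm (Polynomial.C b))))) = b
    rw [step_cc_apply, step_cc_apply]
    exact key ψ.symm hX' b
  · ext a
    change step_cc A (ψ.symm (Polynomial.C (step_cc B (ψ (Polynomial.C a))))) = a
    rw [step_cc_apply, step_cc_apply]
    exact key ψ hX a

theorem step {A : Type} [CommRing A] [Algebra ℂ A] (n : ℕ) (h1 : SCC (n + 1)) (h2 : SCC n) (t : A)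
    (e : Polynomial A ≃ₐ[ℂ] MvPolynomial (Fin (n + 1)) ℂ) (i : Fin (n + 1))
    (he : e (Polynomial.C t) = X i) :
    ∃ (e' : A ≃ₐ[ℂ] MvPolynomial (Fin n) ℂ) (j : Fin n), e' t = X j := by
  -- first part
  obtain ⟨L, hL1, hL2⟩ := step_exists_last (n + 1)
  have hf : IsStableCoordinateOfOrder 1 (e Polynomial.X) := by
    refine ⟨Fin.last (n + 1), (L.trans ((Polynomial.mapAlgEquiv e.symm).trans
      (((Polynomial.Bivariate.swap (R := A)).restrictScalars ℂ).trans
        ((Polynomial.mapAlgEquiv e).trans L.symm)))), ?_⟩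
    change L.symm (Polynomial.mapAlgEquiv e (Polynomial.Bivariate.swap (R := A)
      (Polynomial.mapAlgEquiv e.symm (L (rename (Fin.castAdd 1) (e Polynomial.X)))))) = _
    rw [hL1]
    have e1 : Polynomial.mapAlgEquiv e.symm (Polynomial.C (e Polynomial.X)) =
        (Polynomial.C Polynomial.X : Polynomial (Polynomial A)) := by
      simp
    rw [e1, Polynomial.Bivariate.swap_X]
    have e2 : Polynomial.mapAlgEquiv e (Polynomial.X : Polynomial (Polynomial A)) =
        Polynomial.X := by simp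
    rw [e2, ← hL2, AlgEquiv.symm_apply_apply]
  obtain ⟨i₀, φ, hφ⟩ := h1 _ hf
  obtain ⟨M, hM⟩ := step_exists_var n i₀
  obtain ⟨e2⟩ := step_equiv_of_poly (e.trans (φ.trans M)) (by
    change M (φ (e Polynomial.X)) = Polynomial.X
    rw [hφ, hM])
  -- second part
  obtain ⟨L', hL1', hL2'⟩ := step_exists_last n
  have hg : IsStableCoordinateOfOrder 1 (e2 t) := by
    refine ⟨i, L'.trans ((Polynomial.mapAlgEquiv e2.symm).trans e), ?_⟩
    change e (Polynomial.mapAlgEquiv e2.symm (L' (rename (Fin.castAdd 1) (e2 t)))) = _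
    rw [hL1']
    have e1 : Polynomial.mapAlgEquiv e2.symm (Polynomial.C (e2 t)) = Polynomial.C t := by
      simp
    rw [e1, he]
  obtain ⟨j, φ', hφ'⟩ := h2 _ hg
  exact ⟨e2.trans φ', j, hφ'⟩

end Vale.Agent.P295.Full
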