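import Vale.Agent.P295.Full.Setup

namespace Vale.Agent.P295.Full

section generic
variable {R : Type} [CommRing R]

/-- second order term -/
def fQ (x y p q r t : R) : R :=
  r ^ 2 + y * p ^ 2 + 2 * x * p * q + t * p ^ 2 * q - 2 * y * p * q - x * q ^ 2 - t * p * q ^ 2

theorem fF_expand (x y z p q r t : R) :
    fF (x + t * p) (y + t * q) (z + t * r)
      = fF x y z + t * (fa1 x y * p + fa2 x y * q + fa3 z * r) + t ^ 2 * fQ x y p q r t := by
  simp only [fF, fa1, fa2, fa3, fQ]; ring

theorem unimod (c x y z : R) (hc : 3 * c = 1) (hF : fF x y z = 0) :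
    fa1 x y * (4 * c * x) + fa2 x y * (4 * c * y) + fa3 z * (2 * z + 1) = 1 := by
  simp only [fF] at hF
  simp only [fa1, fa2, fa3]
  linear_combination 4 * hF + (4 * x * y * (x - y)) * hc

theorem map_sg {R' : Type} [CommRing R'] (f : R →+* R') (x y z d : R) :
    f (sg x y z d) = sg (f x) (f y) (f z) (f d) := by
  simp [sg, map_ofNat]

theorem map_phx {R' : Type} [CommRing R'] (f : R →+* R') (b v : R) :
    f (phx b v) = phx (f b) (f v) := by
  simp [phx]

theorem map_phy {R' : Type} [CommRing R'] (f : R →+* R') (b v : R) :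
    f (phy b v) = phy (f b) (f v) := by
  simp [phy, phx]

theorem map_phz {R' : Type} [CommRing R'] (f : R →+* R') (b v : R) :
    f (phz b v) = phz (f b) (f v) := by
  simp [phz, phx]

theorem map_fF {R' : Type} [CommRing R'] (f : R →+* R') (x y z : R) :
    f (fF x y z) = fF (f x) (f y) (f z) := by
  simp [fF]

theorem map_fa1 {R' : Type} [CommRing R'] (f : R →+* R') (x y : R) :
    f (fa1 x y) = fa1 (f x) (f y) := by
  simp [fa1, map_ofNat]

theorem map_fa2 {R' : Type} [CommRing R'] (f : R →+* R') (x y : R) :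
    f (fa2 x y) = fa2 (f x) (f y) := by
  simp [fa2, map_ofNat]

theorem map_fa3 {R' : Type} [CommRing R'] (f : R →+* R') (z : R) :
    f (fa3 z) = fa3 (f z) := by
  simp [fa3, map_ofNat]

theorem map_fQ {R' : Type} [CommRing R'] (f : R →+* R') (x y p q r t : R) :
    f (fQ x y p q r t) = fQ (f x) (f y) (f p) (f q) (f r) (f t) := by
  simp [fQ, map_ofNat]

theorem sg_dvd (t x y z d p q r e : R) :
    t ∣ sg (x + t * p) (y + t * q) (z + t * r) (d + t * e) - sg x y z d := by
  rw [← Ideal.mem_span_singleton, ← Ideal.Quotient.eq]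
  have ht : Ideal.Quotient.mk (Ideal.span {t}) t = 0 :=
    Ideal.Quotient.eq_zero_iff_mem.2 (Ideal.mem_span_singleton_self t)
  rw [map_sg, map_sg]
  simp [ht]

/-! The vector `om` -/

/-- `a · al` -/
def dotA (b v p q r : R) : R :=
  fa1 (phx b v) (phy b v) * p + fa2 (phx b v) (phy b v) * q + fa3 (phz b v) * r

theorem map_dotA {R' : Type} [CommRing R'] (f : R →+* R') (b v p q r : R) :
    f (dotA b v p q r) = dotA (f b) (f v) (f p) (f q) (f r) := by
  simp [dotA, map_fa1, map_fa2, map_fa3, map_phx, map_phy, map_phz]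

def be1 (c b v : R) : R := 4 * c * phx b v
def be2 (c b v : R) : R := 4 * c * phy b v
def be3 (b v : R) : R := 2 * phz b v + 1

theorem dotA_be (c b v : R) (hc : 3 * c = 1) :
    dotA b v (be1 c b v) (be2 c b v) (be3 b v) = 1 :=
  unimod c _ _ _ hc (fF_ph b v)

theorem dotA_add_smul (b v p q r p' q' r' s : R) :
    dotA b v (p + s * p') (q + s * q') (r + s * r')
      = dotA b v p q r + s * dotA b v p' q' r' := by
  simp only [dotA]; ring

theorem dotA_eta (c b v p q r m : R) (hc : 3 * c = 1) :
    dotA b v (p + (m - dotA b v p q r) * be1 c b v) (q + (m - dotA b v p q r) * be2 c b v)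
      (r + (m - dotA b v p q r) * be3 b v) = m := by
  rw [dotA_add_smul, dotA_be c b v hc]; ring

end generic

end Vale.Agent.P295.Full
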