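import Mathlib
import Vale.Agent.P295.Full.Formulas

namespace Vale.Agent.P295.Full

section generic
variable {R : Type} [CommRing R]

/-- the omega vector: `al + (m - a·al) be` -/
def gom1 (c b v p q r m : R) : R := p + (m - dotA b v p q r) * be1 c b v
def gom2 (c b v p q r m : R) : R := q + (m - dotA b v p q r) * be2 c b v
def gom3 (c b v p q r m : R) : R := r + (m - dotA b v p q r) * be3 b v

theorem dotA_gom (c b v p q r m : R) (hc : 3 * c = 1) :
    dotA b v (gom1 c b v p q r m) (gom2 c b v p q r m) (gom3 c b v p q r m) = m :=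
  dotA_eta c b v p q r m hc

def gQ (c t b v p q r m : R) : R :=
  fQ (phx b v) (phy b v) (gom1 c b v p q r m) (gom2 c b v p q r m) (gom3 c b v p q r m) t

def gU1 (c t b v p q r m : R) : R := phx b v + t * gom1 c b v p q r m
def gU2 (c t b v p q r m : R) : R := phy b v + t * gom2 c b v p q r m
def gU3 (c t b v p q r m : R) : R := phz b v + t * gom3 c b v p q r m

theorem fF_gU (c t b v p q r m : R) (hc : 3 * c = 1) :
    fF (gU1 c t b v p q r m) (gU2 c t b v p q r m) (gU3 c t b v p q r m)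
      = t * (m + t * gQ c t b v p q r m) := by
  have h := dotA_gom c b v p q r m hc
  rw [dotA] at h
  rw [gU1, gU2, gU3, fF_expand, fF_ph, h, gQ]
  ring

theorem map_be1 {R' : Type} [CommRing R'] (f : R →+* R') (c b v : R) :
    f (be1 c b v) = be1 (f c) (f b) (f v) := by
  simp [be1, map_phx, map_ofNat]
theorem map_be2 {R' : Type} [CommRing R'] (f : R →+* R') (c b v : R) :
    f (be2 c b v) = be2 (f c) (f b) (f v) := by
  simp [be2, map_phy, map_ofNat]
theorem map_be3 {R' : Type} [CommRing R'] (f : R →+* R') (b v : R) :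
    f (be3 b v) = be3 (f b) (f v) := by
  simp [be3, map_phz, map_ofNat]
theorem map_gom1 {R' : Type} [CommRing R'] (f : R →+* R') (c b v p q r m : R) :
    f (gom1 c b v p q r m) = gom1 (f c) (f b) (f v) (f p) (f q) (f r) (f m) := by
  simp [gom1, map_be1, map_dotA]
theorem map_gom2 {R' : Type} [CommRing R'] (f : R →+* R') (c b v p q r m : R) :
    f (gom2 c b v p q r m) = gom2 (f c) (f b) (f v) (f p) (f q) (f r) (f m) := by
  simp [gom2, map_be2, map_dotA]
theorem map_gom3 {R' : Type} [CommRing R'] (f : R →+* R') (c b v p q r m : R) :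
    f (gom3 c b v p q r m) = gom3 (f c) (f b) (f v) (f p) (f q) (f r) (f m) := by
  simp [gom3, map_be3, map_dotA]
theorem map_gQ {R' : Type} [CommRing R'] (f : R →+* R') (c t b v p q r m : R) :
    f (gQ c t b v p q r m) = gQ (f c) (f t) (f b) (f v) (f p) (f q) (f r) (f m) := by
  simp [gQ, map_fQ, map_phx, map_phy, map_gom1, map_gom2, map_gom3]
theorem map_gU1 {R' : Type} [CommRing R'] (f : R →+* R') (c t b v p q r m : R) :
    f (gU1 c t b v p q r m) = gU1 (f c) (f t) (f b) (f v) (f p) (f q) (f r) (f m) := by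
  simp [gU1, map_phx, map_gom1]
theorem map_gU2 {R' : Type} [CommRing R'] (f : R →+* R') (c t b v p q r m : R) :
    f (gU2 c t b v p q r m) = gU2 (f c) (f t) (f b) (f v) (f p) (f q) (f r) (f m) := by
  simp [gU2, map_phy, map_gom2]
theorem map_gU3 {R' : Type} [CommRing R'] (f : R →+* R') (c t b v p q r m : R) :
    f (gU3 c t b v p q r m) = gU3 (f c) (f t) (f b) (f v) (f p) (f q) (f r) (f m) := by
  simp [gU3, map_phz, map_gom3]

/-! The inverse formulas. -/
def hb (c τ x y z d w0 : R) : R := c * sg x y z d + τ * w0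
def hv (c τ x y z d w1 : R) : R := d - c * sg x y z d + τ * w1

/-- the key computation: `b, v` arbitrary, `x,y,z,d` with `τ d = F(x,y,z)`. -/
theorem inv_key (c τ τi x y z d b v w : R) (hc : 3 * c = 1) (hτ : τ * τi = 1)
    (hd : τ * d = fF x y z) (o1 o2 o3 p q r ζ m : R)
    (ho1 : o1 = τi * (x - phx b v)) (ho2 : o2 = τi * (y - phy b v)) (ho3 : o3 = τi * (z - phz b v))
    (hp : p = gom1 c b v o1 o2 o3 w) (hq : q = gom2 c b v o1 o2 o3 w)
    (hr : r = gom3 c b v o1 o2 o3 w)
    (hζ : ζ = τi * (d - (b + v)) - fQ (phx b v) (phy b v) o1 o2 o3 τ)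
    (hm : m = b + v + τ * ζ) :
    dotA b v p q r = w ∧ gU1 c τ b v p q r m = x ∧ gU2 c τ b v p q r m = y ∧
      gU3 c τ b v p q r m = z ∧ m + τ * gQ c τ b v p q r m = d := by
  have e1 : x = phx b v + τ * o1 := by
    rw [ho1]; linear_combination (phx b v - x) * hτ
  have e2 : y = phy b v + τ * o2 := by
    rw [ho2]; linear_combination (phy b v - y) * hτ
  have e3 : z = phz b v + τ * o3 := by
    rw [ho3]; linear_combination (phz b v - z) * hτ
  have h1 : dotA b v p q r = w := by
    rw [hp, hq, hr]; exact dotA_gom c b v o1 o2 o3 w hc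
  set Q := fQ (phx b v) (phy b v) o1 o2 o3 τ with hQ
  have h2 : fF x y z = τ * dotA b v o1 o2 o3 + τ ^ 2 * Q := by
    conv_lhs => rw [e1, e2, e3]
    rw [fF_expand, fF_ph, dotA, hQ]
    ring
  have h3 : d = dotA b v o1 o2 o3 + τ * Q := by
    have h4 : τ * d = τ * (dotA b v o1 o2 o3 + τ * Q) := by
      rw [hd, h2]; ring
    calc d = τi * (τ * d) := by linear_combination (-d) * hτ
      _ = τi * (τ * (dotA b v o1 o2 o3 + τ * Q)) := by rw [h4]
      _ = dotA b v o1 o2 o3 + τ * Q := by
          linear_combination (dotA b v o1 o2 o3 + τ * Q) * hτ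
  have h5 : m = dotA b v o1 o2 o3 := by
    rw [hm, hζ]
    linear_combination h3 + (d - (b + v)) * hτ
  have g1 : gom1 c b v p q r m = o1 := by
    rw [gom1, h1, hp, gom1, h5]; ring
  have g2 : gom2 c b v p q r m = o2 := by
    rw [gom2, h1, hq, gom2, h5]; ring
  have g3 : gom3 c b v p q r m = o3 := by
    rw [gom3, h1, hr, gom3, h5]; ring
  refine ⟨h1, ?_, ?_, ?_, ?_⟩
  · rw [gU1, g1, e1]
  · rw [gU2, g2, e2]
  · rw [gU3, g3, e3]
  · rw [gQ, g1, g2, g3, h5, ← hQ, ← h3]

end generic

end Vale.Agent.P295.Full
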