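import Vale.Agent.P295.Full.Setup

/-!
No homogeneous locally nilpotent derivation: the induction, with the black boxes as hypotheses.
-/

set_option linter.unusedSimpArgs false

open MvPolynomial

namespace Vale.Agent.P295.Full

lemma nh_weight (d : Fin 3 →₀ ℕ) : Finsupp.weight wt d = 2 * (d 0 : ℤ) + 2 * d 1 + 3 * d 2 := by
  rw [Finsupp.weight_apply, Finsupp.sum_fintype _ _ (by simp)]
  simp only [Fin.sum_univ_three, wt, Matrix.cons_val_zero, Matrix.cons_val_one, Matrix.cons_val_two,
    Matrix.tail_cons, Matrix.head_cons, nsmul_eq_mul, Matrix.cons_val]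
  ring

lemma nh_const {f : A3} {m : ℤ} (hf : IsWeightedHomogeneous wt f m) (hm : m ≤ 1) :
    f = C (coeff 0 f) := by
  ext d
  rw [coeff_C]
  split_ifs with h
  · rw [← h]
  · by_contra hne
    have h1 := hf hne
    rw [nh_weight] at h1
    apply h
    have h2 : d 0 = 0 := by omega
    have h3 : d 1 = 0 := by omega
    have h4 : d 2 = 0 := by omega
    symm
    ext i
    fin_cases i
    · exact h2
    · exact h3
    · exact h4

lemma nh_Fh_hom : IsWeightedHomogeneous wt Fh 6 := by
  have h0 : IsWeightedHomogeneous wt (X 0 : A3) 2 := isWeightedHomogeneous_X ℂ wt 0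
  have h1 : IsWeightedHomogeneous wt (X 1 : A3) 2 := isWeightedHomogeneous_X ℂ wt 1
  have h2 : IsWeightedHomogeneous wt (X 2 : A3) 3 := isWeightedHomogeneous_X ℂ wt 2
  unfold Fh
  refine IsWeightedHomogeneous.add ?_ ?_
  · exact h2.pow 2
  · exact (h0.mul h1).mul (h0.sub h1)

lemma nh_Fh_ne : Fh ≠ 0 := by
  intro h
  have h1 := congrArg (eval ![0, 0, 1]) h
  simp [Fh] at h1

lemma nh_comp_mul {f : A3} {a : ℤ} (hf : IsWeightedHomogeneous wt f a) (k : ℤ) (g : A3) :
    weightedHomogeneousComponent wt (a + k) (f * g) = f * weightedHomogeneousComponent wt k g := by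
  have key : (weightedHomogeneousComponent wt (a + k)) ∘ₗ (LinearMap.mulLeft ℂ f) =
      (LinearMap.mulLeft ℂ f) ∘ₗ (weightedHomogeneousComponent wt k) := by
    refine MvPolynomial.linearMap_ext fun d => ?_
    refine LinearMap.ext fun c => ?_
    simp only [LinearMap.comp_apply, LinearMap.mulLeft_apply]
    have hd : IsWeightedHomogeneous wt (monomial d c : A3) (Finsupp.weight wt d) :=
      isWeightedHomogeneous_monomial wt d c rfl
    by_cases h : Finsupp.weight wt d = k
    · rw [h] at hd
      rw [hd.weightedHomogeneousComponent_same, (hf.mul hd).weightedHomogeneousComponent_same]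
    · rw [hd.weightedHomogeneousComponent_ne k (Ne.symm h), mul_zero]
      refine (hf.mul hd).weightedHomogeneousComponent_ne (a + k) ?_
      intro h'
      exact h (by linarith)
  exact LinearMap.congr_fun key g

lemma nh_quot {f g : A3} {a w : ℤ} (hf : IsWeightedHomogeneous wt f a) (hf0 : f ≠ 0)
    (h : IsWeightedHomogeneous wt (f * g) w) : IsWeightedHomogeneous wt g (w - a) := by
  classical
  intro d hd
  by_contra hne
  have h1 : weightedHomogeneousComponent wt (a + Finsupp.weight wt d) (f * g) = 0 := by
    refine h.weightedHomogeneousComponent_ne _ ?_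
    intro h'
    exact hne (by linarith)
  rw [nh_comp_mul hf] at h1
  have h2 := (mul_eq_zero.1 h1).resolve_left hf0
  have h3 := congrArg (coeff d) h2
  rw [coeff_weightedHomogeneousComponent, if_pos rfl, coeff_zero] at h3
  exact hd h3

lemma nh_DFh (D : Derivation ℂ A3 A3) : D Fh = 2 * X 2 * D (X 2) +
    (2 * X 0 * X 1 - X 1 ^ 2) * D (X 0) + (X 0 ^ 2 - 2 * X 0 * X 1) * D (X 1) := by
  unfold Fh
  simp only [map_add, map_sub, Derivation.leibniz, Derivation.leibniz_pow, smul_eq_mul,
    nsmul_eq_mul]
  push_cast
  ring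

lemma nh_base (e : ℤ) (he : e < 0) (D : Derivation ℂ A3 A3) (hF : D Fh = 0)
    (hh : ∀ m f, IsWeightedHomogeneous wt f m → IsWeightedHomogeneous wt (D f) (m + e)) :
    D = 0 := by
  have h0 := nh_const (hh 2 (X 0) (isWeightedHomogeneous_X ℂ wt 0)) (by omega)
  have h1 := nh_const (hh 2 (X 1) (isWeightedHomogeneous_X ℂ wt 1)) (by omega)
  rw [nh_DFh, h0, h1] at hF
  have e1 := congrArg (eval ![0, 1, 0]) hF
  have e2 := congrArg (eval ![1, 0, 0]) hF
  simp at e1 e2
  rw [e1, e2, C_0, mul_zero, mul_zero, add_zero, add_zero] at hF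
  rw [e1, C_0] at h0
  rw [e2, C_0] at h1
  have h2 : D (X 2) = 0 := by
    have h3 : (2 * X 2 : A3) ≠ 0 := by
      intro h
      have := congrArg (eval ![0, 0, 1]) h
      simp at this
    exact (mul_eq_zero.1 hF).resolve_left h3
  refine MvPolynomial.derivation_ext fun i => ?_
  fin_cases i
  · exact h0
  · exact h1
  · exact h2

lemma nh_iter_hom {e : ℤ} {D : Derivation ℂ A3 A3}
    (hh : ∀ m f, IsWeightedHomogeneous wt f m → IsWeightedHomogeneous wt (D f) (m + e))
    {f : A3} {m : ℤ} (hf : IsWeightedHomogeneous wt f m) (n : ℕ) :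
    IsWeightedHomogeneous wt ((⇑D)^[n] f) (m + n * e) := by
  induction n with
  | zero => simpa using hf
  | succ n ih =>
    rw [Function.iterate_succ_apply']
    have := hh _ _ ih
    convert this using 1
    push_cast
    ring

theorem nh_aux
    (Hexp : ∀ (D : Derivation ℂ A3 A3) (η : A3 →ₐ[ℂ] P2), (∀ a, η a = 0 → η (D a) = 0) →
      (∀ a, ∃ n : ℕ, η ((⇑D)^[n] a) = 0) → ∃ E : A3 →ₐ[ℂ] Polynomial P2,
        (∀ a, E (D a) = Polynomial.derivative (E a)) ∧
        (∀ a, (E a).coeff 0 = η a) ∧ (∀ a, η a = 0 → E a = 0))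
    (Hsmul : ∀ (D D' : Derivation ℂ A3 A3) (f : A3), f ≠ 0 → IsLN D →
      (∀ a, D a = f * D' a) → D' f = 0 ∧ IsLN D')
    (Hker : ∀ f : A3, etah f = 0 ↔ Fh ∣ f)
    (Hform : ∀ (x y z : Polynomial P2), z ^ 2 = x * y * (y - x) → ∀ (g : A3) (m : ℤ), 0 < m →
      IsWeightedHomogeneous wt g m → aeval ![x, y, z] g ≠ 0 →
      Polynomial.derivative (aeval ![x, y, z] g) = 0 →
      Polynomial.derivative x = 0 ∧ Polynomial.derivative y = 0 ∧ Polynomial.derivative z = 0)
    (n : ℕ) : ∀ (e : ℤ) (_ : e < n) (D : Derivation ℂ A3 A3) (_ : IsLN D)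
    (_ : D Fh = 0)
    (_ : ∀ m f, IsWeightedHomogeneous wt f m → IsWeightedHomogeneous wt (D f) (m + e)),
    D = 0 := by
  induction n with
  | zero =>
    intro e he D _ hF hh
    exact nh_base e (by simpa using he) D hF hh
  | succ n ih =>
    intro e he D hLN hF hh
    by_cases he0 : e < 0
    · exact nh_base e he0 D hF hh
    push Not at he0
    by_cases hdiv : ∀ j, Fh ∣ D (X j)
    · choose g hg using hdiv
      set D1 : Derivation ℂ A3 A3 := mkDerivation ℂ g with hD1
      have hD : ∀ a, D a = Fh * D1 a := by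
        intro a
        have h1 : D = Fh • D1 := by
          refine MvPolynomial.derivation_ext fun i => ?_
          rw [Derivation.smul_apply, hD1, mkDerivation_X, smul_eq_mul, hg]
        rw [h1, Derivation.smul_apply, smul_eq_mul]
      obtain ⟨h1, h2⟩ := Hsmul D D1 Fh nh_Fh_ne hLN hD
      have h3 := ih (e - 6) (by push_cast at he; omega) D1 h2 h1 (by
        intro m f hf
        have h4 := hh m f hf
        rw [hD] at h4
        have h5 := nh_quot nh_Fh_hom nh_Fh_ne h4
        convert h5 using 1
        ring)
      refine Derivation.ext fun a => ?_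
      rw [hD, h3]
      simp
    · exfalso
      push Not at hdiv
      obtain ⟨j, hj⟩ := hdiv
      obtain ⟨E, hE1, hE2, hE3⟩ := Hexp D etah
        (by
          intro a ha
          obtain ⟨c, rfl⟩ := (Hker a).1 ha
          rw [Derivation.leibniz, hF, smul_zero, add_zero, smul_eq_mul]
          exact (Hker _).2 (dvd_mul_right _ _))
        (by
          intro a
          obtain ⟨k, hk⟩ := hLN a
          exact ⟨k, by rw [hk, map_zero]⟩)
      set x := E (X 0) with hx
      set y := E (X 1) with hy
      set z := E (X 2) with hz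
      have hEF : E Fh = 0 := hE3 _ ((Hker _).2 dvd_rfl)
      have hrel : z ^ 2 = x * y * (y - x) := by
        have h1 : z ^ 2 + x * y * (x - y) = 0 := by
          rw [← hEF, Fh]
          simp [hx, hy, hz]
        linear_combination h1
      have hEa : ∀ g : A3, aeval ![x, y, z] g = E g := by
        intro g
        have h1 : (aeval ![x, y, z] : A3 →ₐ[ℂ] Polynomial P2) = E := by
          refine MvPolynomial.algHom_ext fun i => ?_
          rw [aeval_X]
          fin_cases i <;> rfl
        rw [h1]
      have hder : Polynomial.derivative (E (X j)) ≠ 0 := by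
        intro h0
        rw [← hE1] at h0
        have h1 := hE2 (D (X j))
        rw [h0, Polynomial.coeff_zero] at h1
        exact hj ((Hker _).1 h1.symm)
      have hiter : ∀ k : ℕ, E ((⇑D)^[k] (X j)) = Polynomial.derivative^[k] (E (X j)) := by
        intro k
        induction k with
        | zero => rfl
        | succ k ihk =>
          rw [Function.iterate_succ_apply', Function.iterate_succ_apply', hE1, ihk]
      set N := (E (X j)).natDegree with hN
      have hne : E (X j) ≠ 0 := by
        intro h0
        rw [h0] at hder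
        exact hder (by simp)
      have hg0 : E ((⇑D)^[N] (X j)) ≠ 0 := by
        rw [hiter, hN]
        intro h0
        have h1 := Polynomial.coeff_iterate_derivative (p := E (X j)) (k := (E (X j)).natDegree) 0
        rw [h0, Polynomial.coeff_zero, zero_add, Nat.descFactorial_self, eq_comm] at h1
        rw [nsmul_eq_mul, mul_eq_zero] at h1
        rcases h1 with h1 | h1
        · exact (Nat.cast_ne_zero.2 (Nat.factorial_ne_zero _)) h1
        · exact hne (Polynomial.leadingCoeff_eq_zero.1 h1)
      have hg1 : Polynomial.derivative (E ((⇑D)^[N] (X j))) = 0 := by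
        rw [hiter]
        have h1 := Polynomial.iterate_derivative_eq_zero (p := E (X j)) (x := N + 1)
          (Nat.lt_succ_self _)
        rw [Function.iterate_succ_apply'] at h1
        exact h1
      have hwt : 0 < wt j := by
        fin_cases j <;> simp [wt]
      have hhom := nh_iter_hom hh (isWeightedHomogeneous_X ℂ wt j) N
      have hpos : 0 < wt j + N * e := by
        have : 0 ≤ (N : ℤ) * e := by positivity
        omega
      obtain ⟨r1, r2, r3⟩ := Hform x y z hrel _ _ hpos hhom (by rw [hEa]; exact hg0)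
        (by rw [hEa]; exact hg1)
      apply hder
      fin_cases j
      · exact r1
      · exact r2
      · exact r3

end Vale.Agent.P295.Full
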