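import Vale.Agent.P295.Full.Formulas2

open MvPolynomial

namespace Vale.Agent.P295.Full

abbrev S7 : Type := MvPolynomial (Fin 7) ℂ

noncomputable def cS : S7 := C (1 / 3)

theorem three_cS : 3 * cS = 1 := by
  rw [cS, show (3 : S7) = C 3 from (map_ofNat C 3).symm, ← C_mul]
  norm_num

noncomputable def mS : S7 := X 1 + X 2 + X 0 * X 6
noncomputable def U1 : S7 := gU1 cS (X 0) (X 1) (X 2) (X 3) (X 4) (X 5) mS
noncomputable def U2 : S7 := gU2 cS (X 0) (X 1) (X 2) (X 3) (X 4) (X 5) mS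
noncomputable def U3 : S7 := gU3 cS (X 0) (X 1) (X 2) (X 3) (X 4) (X 5) mS
noncomputable def QS : S7 := gQ cS (X 0) (X 1) (X 2) (X 3) (X 4) (X 5) mS
noncomputable def DS : S7 := mS + X 0 * QS

theorem fF_U : fF U1 U2 U3 = X 0 * DS :=
  fF_gU cS (X 0) (X 1) (X 2) (X 3) (X 4) (X 5) mS three_cS

theorem exists_W0 : ∃ W : S7, X 0 * W = X 1 - cS * sg U1 U2 U3 DS := by
  have h := sg_dvd (X 0 : S7) (phx (X 1) (X 2)) (phy (X 1) (X 2)) (phz (X 1) (X 2)) (X 1 + X 2)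
    (gom1 cS (X 1) (X 2) (X 3) (X 4) (X 5) mS) (gom2 cS (X 1) (X 2) (X 3) (X 4) (X 5) mS)
    (gom3 cS (X 1) (X 2) (X 3) (X 4) (X 5) mS) (X 6 + QS)
  rw [sg_ph] at h
  obtain ⟨g, hg⟩ := h
  refine ⟨-(cS * g), ?_⟩
  have h1 : sg U1 U2 U3 DS = 3 * X 1 + X 0 * g := by
    rw [← hg, U1, U2, U3, gU1, gU2, gU3, DS, mS]
    ring_nf
  rw [h1]
  linear_combination (X 1) * three_cS

noncomputable def W0 : S7 := exists_W0.choose
theorem W0_spec : X 0 * W0 = X 1 - cS * sg U1 U2 U3 DS := exists_W0.choose_spec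

theorem exists_W1 : ∃ W : S7, X 0 * W = X 2 - (DS - cS * sg U1 U2 U3 DS) := by
  refine ⟨-(X 6 + QS) - W0, ?_⟩
  have := W0_spec
  rw [mul_sub, this, DS, mS]
  ring

noncomputable def W1 : S7 := -(X 6 + QS) - W0
theorem W1_spec : X 0 * W1 = X 2 - (DS - cS * sg U1 U2 U3 DS) := by
  have := W0_spec
  rw [W1, mul_sub, this, DS, mS]
  ring

noncomputable def W2 : S7 := dotA (X 1) (X 2) (X 3) (X 4) (X 5)

/-- the map out of `S7`. -/
theorem exists_Xi {M : Type} [CommRing M] [Algebra ℂ M] (τ τi x y z d w0 w1 w2 : M)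
    (hτ : τ * τi = 1) (hd : τ * d = fF x y z) :
    ∃ Ξ : S7 →ₐ[ℂ] M, Ξ (X 0) = τ ∧ Ξ U1 = x ∧ Ξ U2 = y ∧ Ξ U3 = z ∧ Ξ DS = d ∧
      Ξ W0 = w0 ∧ Ξ W1 = w1 ∧ Ξ W2 = w2 := by
  set c : M := algebraMap ℂ M (1 / 3) with hcdef
  have hc : 3 * c = 1 := by
    rw [hcdef, show (3 : M) = algebraMap ℂ M 3 from (map_ofNat _ 3).symm, ← map_mul]
    norm_num
  set b : M := hb c τ x y z d w0 with hbdef
  set v : M := hv c τ x y z d w1 with hvdef
  set o1 : M := τi * (x - phx b v) with ho1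
  set o2 : M := τi * (y - phy b v) with ho2
  set o3 : M := τi * (z - phz b v) with ho3
  set p : M := gom1 c b v o1 o2 o3 w2 with hp
  set q : M := gom2 c b v o1 o2 o3 w2 with hq
  set r : M := gom3 c b v o1 o2 o3 w2 with hr
  set ζ : M := τi * (d - (b + v)) - fQ (phx b v) (phy b v) o1 o2 o3 τ with hζ
  obtain ⟨k1, k2, k3, k4, k5⟩ := inv_key c τ τi x y z d b v w2 hc hτ hd o1 o2 o3 p q r ζ
    (b + v + τ * ζ) ho1 ho2 ho3 hp hq hr hζ rfl
  let Ξ : S7 →ₐ[ℂ] M := aeval ![τ, b, v, p, q, r, ζ]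
  have x0 : Ξ (X 0) = τ := by simp [Ξ]
  have x1 : Ξ (X 1) = b := by simp [Ξ]
  have x2 : Ξ (X 2) = v := by simp [Ξ]
  have x3 : Ξ (X 3) = p := by simp [Ξ]
  have x4 : Ξ (X 4) = q := by simp [Ξ]
  have x5 : Ξ (X 5) = r := by simp [Ξ]
  have x6 : Ξ (X 6) = ζ := by simp [Ξ]
  have xc : Ξ cS = c := by
    rw [cS, hcdef]; exact Ξ.commutes (1 / 3)
  have xm : Ξ mS = b + v + τ * ζ := by simp [mS, x0, x1, x2, x6]
  have y1 : Ξ U1 = x := by
    have := map_gU1 (Ξ : S7 →+* M) cS (X 0) (X 1) (X 2) (X 3) (X 4) (X 5) mS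
    simp only [RingHom.coe_coe, xc, x0, x1, x2, x3, x4, x5, xm] at this
    rw [U1, this, k2]
  have y2 : Ξ U2 = y := by
    have := map_gU2 (Ξ : S7 →+* M) cS (X 0) (X 1) (X 2) (X 3) (X 4) (X 5) mS
    simp only [RingHom.coe_coe, xc, x0, x1, x2, x3, x4, x5, xm] at this
    rw [U2, this, k3]
  have y3 : Ξ U3 = z := by
    have := map_gU3 (Ξ : S7 →+* M) cS (X 0) (X 1) (X 2) (X 3) (X 4) (X 5) mS
    simp only [RingHom.coe_coe, xc, x0, x1, x2, x3, x4, x5, xm] at this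
    rw [U3, this, k4]
  have yQ : Ξ QS = gQ c τ b v p q r (b + v + τ * ζ) := by
    have := map_gQ (Ξ : S7 →+* M) cS (X 0) (X 1) (X 2) (X 3) (X 4) (X 5) mS
    simp only [RingHom.coe_coe, xc, x0, x1, x2, x3, x4, x5, xm] at this
    rw [QS, this]
  have yd : Ξ DS = d := by
    rw [DS, map_add, map_mul, xm, x0, yQ, k5]
  have ysg : Ξ (sg U1 U2 U3 DS) = sg x y z d := by
    have := map_sg (Ξ : S7 →+* M) U1 U2 U3 DS
    simp only [RingHom.coe_coe, y1, y2, y3, yd] at this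
    exact this
  have yw2 : Ξ W2 = w2 := by
    have := map_dotA (Ξ : S7 →+* M) (X 1) (X 2) (X 3) (X 4) (X 5)
    simp only [RingHom.coe_coe, x1, x2, x3, x4, x5] at this
    rw [W2, this, k1]
  have yw0 : Ξ W0 = w0 := by
    have h := congrArg Ξ W0_spec
    rw [map_mul, x0, map_sub, x1, map_mul, xc, ysg, hbdef, hb] at h
    calc Ξ W0 = τi * (τ * Ξ W0) := by linear_combination (-Ξ W0) * hτ
      _ = w0 := by rw [h]; linear_combination w0 * hτ
  have yw1 : Ξ W1 = w1 := by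
    have h := congrArg Ξ W1_spec
    rw [map_mul, x0, map_sub, x2, map_sub, yd, map_mul, xc, ysg, hvdef, hv] at h
    calc Ξ W1 = τi * (τ * Ξ W1) := by linear_combination (-Ξ W1) * hτ
      _ = w1 := by rw [h]; linear_combination w1 * hτ
  exact ⟨Ξ, x0, y1, y2, y3, yd, yw0, yw1, yw2⟩

end Vale.Agent.P295.Full
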