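import Vale.Agent.P295.Full.RingB

open MvPolynomial

namespace Vale.Agent.P295.Full

/-- the map `ℂ[x,y,z][t] → S`. -/
noncomputable def uU : A3 →ₐ[ℂ] S7 := aeval ![U1, U2, U3]

noncomputable def u7 : Polynomial A3 →ₐ[ℂ] S7 :=
  Polynomial.eval₂AlgHom uU (X 0) (fun _ => Commute.all _ _)

theorem u7_apply (f : Polynomial A3) : u7 f = Polynomial.eval₂ (uU : A3 →+* S7) (X 0) f := rfl

theorem u7_X : u7 Polynomial.X = X 0 := by
  rw [u7_apply, Polynomial.eval₂_X]

theorem u7_C (f : A3) : u7 (Polynomial.C f) = uU f := by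
  rw [u7_apply, Polynomial.eval₂_C]; rfl

theorem uU_X0 : uU (X 0) = U1 := by simp [uU]
theorem uU_X1 : uU (X 1) = U2 := by simp [uU]
theorem uU_X2 : uU (X 2) = U3 := by simp [uU]

theorem uU_F : uU F = X 0 * DS := by
  have := map_fF (uU : A3 →+* S7) (X 0) (X 1) (X 2)
  simp only [RingHom.coe_coe, uU_X0, uU_X1, uU_X2] at this
  rw [F, this, fF_U]

/-- The ring `B`. -/
noncomputable def BB : Subalgebra ℂ S7 where
  carrier := {s | ∃ (n : ℕ) (f : Polynomial A3), X 0 ^ n * s = u7 f}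
  mul_mem' := by
    rintro a b ⟨n, f, hf⟩ ⟨m, g, hg⟩
    refine ⟨n + m, f * g, ?_⟩
    rw [map_mul, ← hf, ← hg]; ring
  add_mem' := by
    rintro a b ⟨n, f, hf⟩ ⟨m, g, hg⟩
    refine ⟨n + m, Polynomial.X ^ m * f + Polynomial.X ^ n * g, ?_⟩
    rw [map_add, map_mul, map_mul, map_pow, map_pow, u7_X, ← hf, ← hg]; ring
  algebraMap_mem' := by
    intro r
    exact ⟨0, algebraMap ℂ _ r, by rw [pow_zero, one_mul, AlgHom.commutes]⟩

theorem mem_BB (s : S7) : s ∈ BB ↔ ∃ (n : ℕ) (f : Polynomial A3), X 0 ^ n * s = u7 f := Iff.rfl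

theorem u7_mem (f : Polynomial A3) : u7 f ∈ BB := ⟨0, f, by simp⟩

theorem X0_mem : (X 0 : S7) ∈ BB := by
  rw [← u7_X]; exact u7_mem _

theorem BB_div (s : S7) (h : X 0 * s ∈ BB) : s ∈ BB := by
  obtain ⟨n, f, hf⟩ := h
  exact ⟨n + 1, f, by rw [← hf]; ring⟩

theorem U1_mem : U1 ∈ BB := by rw [← uU_X0, ← u7_C]; exact u7_mem _
theorem U2_mem : U2 ∈ BB := by rw [← uU_X1, ← u7_C]; exact u7_mem _
theorem U3_mem : U3 ∈ BB := by rw [← uU_X2, ← u7_C]; exact u7_mem _
theorem DS_mem : DS ∈ BB := ⟨1, Polynomial.C F, by rw [u7_C, uU_F, pow_one]⟩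

section closure
variable {E : Subalgebra ℂ S7}

theorem sg_mem {x y z d : S7} (hx : x ∈ E) (hy : y ∈ E) (hz : z ∈ E) (hd : d ∈ E) :
    sg x y z d ∈ E := by
  have h := map_sg (E.val : E →+* S7) ⟨x, hx⟩ ⟨y, hy⟩ ⟨z, hz⟩ ⟨d, hd⟩
  simp only [RingHom.coe_coe, Subalgebra.coe_val] at h
  rw [← h]; exact Subtype.property _

theorem phx_mem {b v : S7} (hb : b ∈ E) (hv : v ∈ E) : phx b v ∈ E := by
  have h := map_phx (E.val : E →+* S7) ⟨b, hb⟩ ⟨v, hv⟩
  simp only [RingHom.coe_coe, Subalgebra.coe_val] at h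
  rw [← h]; exact Subtype.property _

theorem phy_mem {b v : S7} (hb : b ∈ E) (hv : v ∈ E) : phy b v ∈ E := by
  have h := map_phy (E.val : E →+* S7) ⟨b, hb⟩ ⟨v, hv⟩
  simp only [RingHom.coe_coe, Subalgebra.coe_val] at h
  rw [← h]; exact Subtype.property _

theorem phz_mem {b v : S7} (hb : b ∈ E) (hv : v ∈ E) : phz b v ∈ E := by
  have h := map_phz (E.val : E →+* S7) ⟨b, hb⟩ ⟨v, hv⟩
  simp only [RingHom.coe_coe, Subalgebra.coe_val] at h
  rw [← h]; exact Subtype.property _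

theorem dotA_mem {b v p q r : S7} (hb : b ∈ E) (hv : v ∈ E) (hp : p ∈ E) (hq : q ∈ E)
    (hr : r ∈ E) : dotA b v p q r ∈ E := by
  have h := map_dotA (E.val : E →+* S7) ⟨b, hb⟩ ⟨v, hv⟩ ⟨p, hp⟩ ⟨q, hq⟩ ⟨r, hr⟩
  simp only [RingHom.coe_coe, Subalgebra.coe_val] at h
  rw [← h]; exact Subtype.property _

theorem fQ_mem {x y p q r t : S7} (hx : x ∈ E) (hy : y ∈ E) (hp : p ∈ E) (hq : q ∈ E)
    (hr : r ∈ E) (ht : t ∈ E) : fQ x y p q r t ∈ E := by
  have h := map_fQ (E.val : E →+* S7) ⟨x, hx⟩ ⟨y, hy⟩ ⟨p, hp⟩ ⟨q, hq⟩ ⟨r, hr⟩ ⟨t, ht⟩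
  simp only [RingHom.coe_coe, Subalgebra.coe_val] at h
  rw [← h]; exact Subtype.property _

theorem cS_mem : cS ∈ E := by
  rw [cS]; exact Subalgebra.algebraMap_mem E (1 / 3)

theorem be1_mem {b v : S7} (hb : b ∈ E) (hv : v ∈ E) : be1 cS b v ∈ E := by
  have h := map_be1 (E.val : E →+* S7) ⟨cS, cS_mem⟩ ⟨b, hb⟩ ⟨v, hv⟩
  simp only [RingHom.coe_coe, Subalgebra.coe_val] at h
  rw [← h]; exact Subtype.property _

theorem be2_mem {b v : S7} (hb : b ∈ E) (hv : v ∈ E) : be2 cS b v ∈ E := by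
  have h := map_be2 (E.val : E →+* S7) ⟨cS, cS_mem⟩ ⟨b, hb⟩ ⟨v, hv⟩
  simp only [RingHom.coe_coe, Subalgebra.coe_val] at h
  rw [← h]; exact Subtype.property _

theorem be3_mem {b v : S7} (hb : b ∈ E) (hv : v ∈ E) : be3 b v ∈ E := by
  have h := map_be3 (E.val : E →+* S7) ⟨b, hb⟩ ⟨v, hv⟩
  simp only [RingHom.coe_coe, Subalgebra.coe_val] at h
  rw [← h]; exact Subtype.property _

end closure

/-! ### Injectivity -/

noncomputable def Ws : Fin 3 → S7 := ![W0, W1, W2]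

/-- fraction field of `ℂ[x,y,z][t]` -/
abbrev KK : Type := FractionRing (Polynomial A3)

noncomputable def tauK : KK := algebraMap (Polynomial A3) KK Polynomial.X

theorem tauK_ne : tauK ≠ 0 := by
  rw [tauK, Ne, map_eq_zero_iff _ (IsFractionRing.injective (Polynomial A3) KK)]
  exact Polynomial.X_ne_zero

theorem exists_XiK : ∃ Ξ : S7 →ₐ[ℂ] MvPolynomial (Fin 3) KK,
    (∀ f : Polynomial A3, Ξ (u7 f) = C (algebraMap (Polynomial A3) KK f)) ∧
    (∀ i, Ξ (Ws i) = X i) := by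
  let g : Polynomial A3 →ₐ[ℂ] MvPolynomial (Fin 3) KK :=
    (IsScalarTower.toAlgHom ℂ KK (MvPolynomial (Fin 3) KK)).comp
      (IsScalarTower.toAlgHom ℂ (Polynomial A3) KK)
  have hg : ∀ f, g f = C (algebraMap (Polynomial A3) KK f) := fun f => rfl
  obtain ⟨Ξ, h0, h1, h2, h3, h4, h5, h6, h7⟩ :=
    exists_Xi (M := MvPolynomial (Fin 3) KK) (g Polynomial.X) (C tauK⁻¹)
      (g (Polynomial.C (X 0))) (g (Polynomial.C (X 1))) (g (Polynomial.C (X 2)))
      (C (tauK⁻¹) * g (Polynomial.C F)) (X 0) (X 1) (X 2)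
      (by
        rw [hg, ← C_mul]
        have : algebraMap (Polynomial A3) KK Polynomial.X * tauK⁻¹ = 1 := mul_inv_cancel₀ tauK_ne
        rw [this, C_1])
      (by
        rw [← mul_assoc]
        have h1 : g Polynomial.X * C (tauK⁻¹) = 1 := by
          rw [hg, ← C_mul]
          have : algebraMap (Polynomial A3) KK Polynomial.X * tauK⁻¹ = 1 :=
            mul_inv_cancel₀ tauK_ne
          rw [this, C_1]
        rw [h1, one_mul]
        have := map_fF ((g : Polynomial A3 →+* MvPolynomial (Fin 3) KK).comp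
          (Polynomial.C : A3 →+* Polynomial A3)) (X 0) (X 1) (X 2)
        exact this)
  refine ⟨Ξ, ?_, ?_⟩
  · intro f
    have key : Ξ.comp u7 = g := by
      apply Polynomial.algHom_ext'
      · apply MvPolynomial.algHom_ext
        intro i
        fin_cases i
        · change Ξ (u7 (Polynomial.C (X 0))) = g (Polynomial.C (X 0))
          rw [u7_C, uU_X0, h1]
        · change Ξ (u7 (Polynomial.C (X 1))) = g (Polynomial.C (X 1))
          rw [u7_C, uU_X1, h2]
        · change Ξ (u7 (Polynomial.C (X 2))) = g (Polynomial.C (X 2))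
          rw [u7_C, uU_X2, h3]
      · change Ξ (u7 Polynomial.X) = g Polynomial.X
        rw [u7_X, h0]
    rw [← hg, ← key]; rfl
  · intro i
    fin_cases i
    · exact h5
    · exact h6
    · exact h7

theorem u7_injective : Function.Injective u7 := by
  obtain ⟨Ξ, h, -⟩ := exists_XiK
  intro f g hfg
  have := congrArg Ξ hfg
  rw [h, h] at this
  exact IsFractionRing.injective (Polynomial A3) KK (C_injective _ _ this)

theorem aeval_Ws_injective :
    Function.Injective (aeval (R := BB) Ws : MvPolynomial (Fin 3) BB →ₐ[BB] S7) := by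
  obtain ⟨Ξ, h, hW⟩ := exists_XiK
  -- coefficients
  have hB : ∀ s : BB, ∃ k : KK, Ξ (s : S7) = C k := by
    rintro ⟨s, n, f, hf⟩
    refine ⟨(tauK⁻¹) ^ n * algebraMap (Polynomial A3) KK f, ?_⟩
    have h1 := congrArg Ξ hf
    rw [map_mul, map_pow, ← u7_X, h, h] at h1
    change Ξ s = _
    have h2 : C (tauK⁻¹ ^ n) * (C (tauK) ^ n * Ξ s) = Ξ s := by
      rw [← mul_assoc, ← C_pow, ← C_mul, ← mul_pow, inv_mul_cancel₀ tauK_ne, one_pow, C_1,
        one_mul]
    rw [← h2, C_mul]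
    congr 1
  let ι : BB →+* KK := (constantCoeff.comp (Ξ : S7 →+* MvPolynomial (Fin 3) KK)).comp
    (BB.val : BB →+* S7)
  have hι : ∀ s : BB, Ξ (s : S7) = C (ι s) := by
    intro s
    obtain ⟨k, hk⟩ := hB s
    have : ι s = k := by
      change constantCoeff (Ξ (s : S7)) = k
      rw [hk, constantCoeff_C]
    rw [this, hk]
  have hιinj : Function.Injective ι := by
    rw [injective_iff_map_eq_zero]
    rintro ⟨s, n, f, hf⟩ hs
    have h1 := hι ⟨s, n, f, hf⟩
    rw [hs, C_0] at h1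
    have h2 := congrArg Ξ hf
    rw [map_mul, h] at h2
    change Ξ s = 0 at h1
    rw [h1, mul_zero] at h2
    have h3 : f = 0 := by
      apply IsFractionRing.injective (Polynomial A3) KK
      rw [map_zero]
      exact C_injective (Fin 3) KK (by rw [← h2, C_0])
    rw [h3, map_zero] at hf
    have h4 : s = 0 := by
      rcases mul_eq_zero.1 hf with h5 | h5
      · exact absurd h5 (pow_ne_zero n (X_ne_zero 0))
      · exact h5
    exact Subtype.ext h4
  have hcomp : ((Ξ : S7 →+* MvPolynomial (Fin 3) KK).comp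
      (aeval (R := BB) Ws : MvPolynomial (Fin 3) BB →ₐ[BB] S7).toRingHom) = MvPolynomial.map ι := by
    apply MvPolynomial.ringHom_ext
    · intro s
      change Ξ (aeval Ws (C s)) = _
      rw [aeval_C, map_C]
      exact hι s
    · intro i
      change Ξ (aeval Ws (X i)) = _
      rw [aeval_X, map_X, hW]
  intro p q hpq
  apply MvPolynomial.map_injective ι hιinj
  rw [← hcomp]
  change Ξ (aeval Ws p) = Ξ (aeval Ws q)
  exact congrArg Ξ hpq

end Vale.Agent.P295.Full
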